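import Vale.Agent.P366.Calc

/-!
# The divergence theorem on coordinate spheres, from rotation invariance (P366)
-/

open MeasureTheory Set Metric
open scoped Topology Pointwise

namespace Vale.P366

variable {n : ℕ}

lemma smul_sphere_mem {U : Set (Pt n)} {r : ℝ} (hr : 0 < r) (hU : ∀ x, ‖x‖ = r → x ∈ U)
    (θ : sphere (0 : Pt n) 1) : r • (θ : Pt n) ∈ U :=
  hU _ (by rw [norm_smul, norm_eq_of_mem_sphere θ, mul_one, Real.norm_of_nonneg hr.le])

/-- The action of a linear isometry on the unit sphere. -/
noncomputable def sphereMap (Q : Pt n ≃ₗᵢ[ℝ] Pt n) (θ : sphere (0 : Pt n) 1) : sphere (0 : Pt n) 1 :=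
  ⟨Q θ, by simp [norm_eq_of_mem_sphere θ]⟩

lemma continuous_sphereMap (Q : Pt n ≃ₗᵢ[ℝ] Pt n) : Continuous (sphereMap Q) :=
  (Q.continuous.comp continuous_subtype_val).subtype_mk _

lemma sphereMap_measurePreserving (Q : Pt n ≃ₗᵢ[ℝ] Pt n) :
    MeasurePreserving (sphereMap Q) (sphereMeasure n) (sphereMeasure n) := by
  have hm := (continuous_sphereMap Q).measurable
  refine ⟨hm, Measure.ext fun s hs => ?_⟩
  rw [Measure.map_apply hm hs, sphereMeasure, Measure.toSphere_apply' _ (hm hs),
    Measure.toSphere_apply' _ hs]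
  congr 1
  have h1 : Ioo (0 : ℝ) 1 • ((↑) '' (sphereMap Q ⁻¹' s) : Set (Pt n))
      = Q ⁻¹' (Ioo (0 : ℝ) 1 • ((↑) '' s : Set (Pt n))) := by
    ext z
    simp only [Set.mem_smul, mem_image, mem_preimage]
    constructor
    · rintro ⟨t, ht, _, ⟨θ, hθ, rfl⟩, rfl⟩
      exact ⟨t, ht, _, ⟨sphereMap Q θ, hθ, rfl⟩, by simp [sphereMap]⟩
    · rintro ⟨t, ht, _, ⟨θ, hθ, rfl⟩, e⟩
      refine ⟨t, ht, _, ⟨sphereMap Q.symm θ, ?_, rfl⟩, ?_⟩
      · have : sphereMap Q (sphereMap Q.symm θ) = θ := Subtype.ext (by simp [sphereMap])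
        rw [this]; exact hθ
      · refine Q.injective ?_
        simp [sphereMap, e]
  rw [h1]
  exact Q.measurePreserving.measure_preimage_emb Q.toHomeomorph.measurableEmbedding _

instance : IsFiniteMeasure (sphereMeasure n) := by
  unfold sphereMeasure; infer_instance

lemma sphereArea_pos (hn : 1 ≤ n) : 0 < sphereArea n := by
  haveI : Nonempty (Fin n) := ⟨⟨0, hn⟩⟩
  have h : sphereMeasure n ≠ 0 := Measure.toSphere_ne_zero volume
  exact ENNReal.toReal_pos (by simpa using h) (measure_ne_top _ _)

lemma integral_sphere_comp (Q : Pt n ≃ₗᵢ[ℝ] Pt n) {f : Pt n → ℝ}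
    (hf : Continuous fun θ : sphere (0 : Pt n) 1 => f θ) :
    ∫ θ : sphere (0 : Pt n) 1, f (Q θ) ∂sphereMeasure n
      = ∫ θ : sphere (0 : Pt n) 1, f θ ∂sphereMeasure n := by
  have h := sphereMap_measurePreserving Q
  conv_rhs => rw [← h.map_eq]
  rw [integral_map h.measurable.aemeasurable hf.aestronglyMeasurable]
  rfl

lemma integral_sphere_coord (i : Fin n) :
    ∫ θ : sphere (0 : Pt n) 1, (θ : Pt n) i ∂sphereMeasure n = 0 := by
  have h := integral_sphere_comp (LinearIsometryEquiv.neg ℝ) (f := fun z : Pt n => z i)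
    ((contDiff_coord (k := 0) i).continuous.comp continuous_subtype_val)
  simp only [LinearIsometryEquiv.coe_neg, PiLp.neg_apply, integral_neg] at h
  linarith

lemma integrable_sphere {f : sphere (0 : Pt n) 1 → ℝ} (hf : Continuous f) :
    Integrable f (sphereMeasure n) :=
  hf.integrable_of_hasCompactSupport (HasCompactSupport.of_compactSpace _)

/-- The rotation by the angle `t` in the plane of two coordinates. -/
noncomputable def rotLin (c a : Fin n) (t : ℝ) : Pt n →ₗ[ℝ] Pt n where
  toFun x := x + ((Real.cos t - 1) * x c - Real.sin t * x a) • EuclideanSpace.single c (1 : ℝ)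
    + ((Real.cos t - 1) * x a + Real.sin t * x c) • EuclideanSpace.single a (1 : ℝ)
  map_add' x y := by simp only [PiLp.add_apply]; module
  map_smul' m x := by simp only [PiLp.smul_apply, smul_eq_mul, RingHom.id_apply]; module

lemma rotLin_norm {c a : Fin n} (hca : c ≠ a) (t : ℝ) (x : Pt n) : ‖rotLin c a t x‖ = ‖x‖ := by
  rw [← sq_eq_sq₀ (norm_nonneg _) (norm_nonneg _), ← rsq_eq, ← rsq_eq]
  set A := (Real.cos t - 1) * x c - Real.sin t * x a
  set B := (Real.cos t - 1) * x a + Real.sin t * x c
  have e : ∀ k, rotLin c a t x k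
      = x k + A * (if c = k then 1 else 0) + B * (if a = k then 1 else 0) := by
    intro k
    simp [rotLin, A, B, PiLp.single_apply, eq_comm (a := k)]
  calc rsq (rotLin c a t x)
      = ∑ k, (x k * x k + 2 * A * (x k * (if c = k then 1 else 0))
          + 2 * B * (x k * (if a = k then 1 else 0))
          + A * A * ((1 : ℝ) * (if c = k then 1 else 0))
          + B * B * ((1 : ℝ) * (if a = k then 1 else 0))) := by
        refine Finset.sum_congr rfl fun k _ => ?_
        rw [e]
        rcases eq_or_ne c k with rfl | h1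
        · simp [hca.symm]; ring
        · rcases eq_or_ne a k with rfl | h2 <;> simp [*] <;> ring
    _ = rsq x + (2 * A * x c + 2 * B * x a + A * A + B * B) := by
        simp [Finset.sum_add_distrib, rsq]; ring
    _ = rsq x := by
        have := Real.sin_sq_add_cos_sq t
        simp only [A, B]; linear_combination (x c ^ 2 + x a ^ 2) * this

/-- The rotation as a linear isometry. -/
noncomputable def rot {c a : Fin n} (hca : c ≠ a) (t : ℝ) : Pt n ≃ₗᵢ[ℝ] Pt n :=
  ({ rotLin c a t with norm_map' := rotLin_norm hca t } : Pt n →ₗᵢ[ℝ] Pt n).toLinearIsometryEquiv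
    rfl

lemma continuousOn_pd {U : Set (Pt n)} (hU : IsOpen U) {f : Pt n → ℝ} (hf : ContDiffOn ℝ 1 f U)
    (i : Fin n) : ContinuousOn (pd i f) U :=
  (hf.continuousOn_fderiv_of_isOpen hU le_rfl).clm_apply continuousOn_const

/-- The velocity of the rotation. -/
noncomputable def rotVel (c a : Fin n) (p : ℝ × sphere (0 : Pt n) 1) : Pt n :=
  (-Real.sin p.1 * (p.2 : Pt n) c - Real.cos p.1 * (p.2 : Pt n) a)
      • EuclideanSpace.single c (1 : ℝ)
    + (-Real.sin p.1 * (p.2 : Pt n) a + Real.cos p.1 * (p.2 : Pt n) c)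
      • EuclideanSpace.single a (1 : ℝ)

lemma continuous_sphere_coord (i : Fin n) :
    Continuous fun p : ℝ × sphere (0 : Pt n) 1 => (p.2 : Pt n) i :=
  (EuclideanSpace.proj i : Pt n →L[ℝ] ℝ).continuous.comp
    (continuous_subtype_val.comp continuous_snd)

lemma continuous_rotVel (c a : Fin n) : Continuous (rotVel c a) := by
  have h1 := continuous_sphere_coord (n := n) c
  have h2 := continuous_sphere_coord (n := n) a
  have s1 : Continuous fun p : ℝ × sphere (0 : Pt n) 1 => Real.sin p.1 :=
    Real.continuous_sin.comp continuous_fst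
  have s2 : Continuous fun p : ℝ × sphere (0 : Pt n) 1 => Real.cos p.1 :=
    Real.continuous_cos.comp continuous_fst
  exact (((s1.neg.mul h1).sub (s2.mul h2)).smul continuous_const).add
    (((s1.neg.mul h2).add (s2.mul h1)).smul continuous_const)

lemma continuous_rotLin (c a : Fin n) :
    Continuous fun p : ℝ × sphere (0 : Pt n) 1 => rotLin c a p.1 p.2 := by
  have h1 := continuous_sphere_coord (n := n) c
  have h2 := continuous_sphere_coord (n := n) a
  have s1 : Continuous fun p : ℝ × sphere (0 : Pt n) 1 => Real.sin p.1 :=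
    Real.continuous_sin.comp continuous_fst
  have s2 : Continuous fun p : ℝ × sphere (0 : Pt n) 1 => Real.cos p.1 - 1 :=
    (Real.continuous_cos.comp continuous_fst).sub continuous_const
  exact ((continuous_subtype_val.comp continuous_snd).add
    (((s2.mul h1).sub (s1.mul h2)).smul continuous_const)).add
    (((s2.mul h2).add (s1.mul h1)).smul continuous_const)

lemma hasDerivAt_rotLin (c a : Fin n) (t : ℝ) (θ : sphere (0 : Pt n) 1) :
    HasDerivAt (fun s => rotLin c a s θ) (rotVel c a (t, θ)) t := by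
  have d1 := (((Real.hasDerivAt_cos t).sub_const 1).mul_const ((θ : Pt n) c)).sub
    ((Real.hasDerivAt_sin t).mul_const ((θ : Pt n) a))
  have d2 := (((Real.hasDerivAt_cos t).sub_const 1).mul_const ((θ : Pt n) a)).add
    ((Real.hasDerivAt_sin t).mul_const ((θ : Pt n) c))
  exact ((d1.smul_const (EuclideanSpace.single c (1 : ℝ))).const_add (θ : Pt n)).add
    (d2.smul_const (EuclideanSpace.single a (1 : ℝ)))

lemma rot_apply {c a : Fin n} (hca : c ≠ a) (t : ℝ) (x : Pt n) :
    rot hca t x = rotLin c a t x := rfl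

lemma rotLin_zero (c a : Fin n) (x : Pt n) : rotLin c a 0 x = x := by
  simp [rotLin]

attribute [local irreducible] rotLin rot rotVel sphereMeasure

/-- An infinitesimal rotation integrates to zero over a sphere. -/
lemma integral_rot {U : Set (Pt n)} (hU : IsOpen U) {r : ℝ} (hr : 0 < r)
    (hS : ∀ x, ‖x‖ = r → x ∈ U) {f : Pt n → ℝ} (hf : ContDiffOn ℝ 1 f U) (c a : Fin n) :
    ∫ θ : sphere (0 : Pt n) 1, ((r • (θ : Pt n)) c * pd a f (r • (θ : Pt n))
      - (r • (θ : Pt n)) a * pd c f (r • (θ : Pt n))) ∂sphereMeasure n = 0 := by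
  rcases eq_or_ne c a with rfl | hca
  · simp
  let D : ℝ × sphere (0 : Pt n) 1 → ℝ := fun p =>
    fderiv ℝ f (r • rotLin c a p.1 p.2) (r • rotVel c a p)
  have hmem : ∀ t (θ : sphere (0 : Pt n) 1), r • rotLin c a t θ ∈ U := fun t θ =>
    hS _ (by rw [norm_smul, rotLin_norm hca, norm_eq_of_mem_sphere θ, mul_one,
      Real.norm_of_nonneg hr.le])
  have hγc : Continuous fun p : ℝ × sphere (0 : Pt n) 1 => r • rotLin c a p.1 p.2 :=
    (continuous_rotLin c a).const_smul r
  have hD : Continuous D :=
    ((hf.continuousOn_fderiv_of_isOpen hU le_rfl).comp_continuous hγc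
      (fun p => hmem p.1 p.2)).clm_apply ((continuous_rotVel c a).const_smul r)
  obtain ⟨C, hC⟩ := ((isCompact_Icc (a := (-1 : ℝ)) (b := 1)).prod isCompact_univ
    (t := (univ : Set (sphere (0 : Pt n) 1)))).exists_bound_of_continuousOn hD.continuousOn
  have hdiff : ∀ t (θ : sphere (0 : Pt n) 1),
      HasDerivAt (fun s => f (r • rotLin c a s θ)) (D (t, θ)) t := fun t θ =>
    ((hf.differentiableOn one_ne_zero).differentiableAt
      (hU.mem_nhds (hmem t θ))).hasFDerivAt.comp_hasDerivAt t
      ((hasDerivAt_rotLin c a t θ).const_smul r)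
  have hcont : ∀ t, Continuous fun θ : sphere (0 : Pt n) 1 => f (r • rotLin c a t θ) := fun t =>
    hf.continuousOn.comp_continuous
      (f := fun θ : sphere (0 : Pt n) 1 => r • rotLin c a t θ)
      (hγc.comp (continuous_const.prodMk continuous_id)) (hmem t)
  have hconst : ∀ t, ∫ θ : sphere (0 : Pt n) 1, f (r • rotLin c a t θ) ∂sphereMeasure n
      = ∫ θ : sphere (0 : Pt n) 1, f (r • (θ : Pt n)) ∂sphereMeasure n := fun t => by
    have h := integral_sphere_comp (rot hca t) (f := fun z => f (r • z))
      (hf.continuousOn.comp_continuous (f := fun θ : sphere (0 : Pt n) 1 => r • (θ : Pt n))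
        (continuous_subtype_val.const_smul r) (smul_sphere_mem hr hS))
    simpa only [rot_apply] using h
  have hmain := hasDerivAt_integral_of_dominated_loc_of_deriv_le (μ := sphereMeasure n)
    (F := fun t (θ : sphere (0 : Pt n) 1) => f (r • rotLin c a t θ))
    (F' := fun t θ => D (t, θ)) (x₀ := (0 : ℝ))
    (bound := fun _ => C) (s := Icc (-1) 1) (Icc_mem_nhds (by norm_num) (by norm_num))
    (Filter.Eventually.of_forall fun t => (hcont t).aestronglyMeasurable)
    (integrable_sphere (hcont 0))
    ((hD.comp (continuous_const.prodMk continuous_id)).aestronglyMeasurable)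
    (Filter.Eventually.of_forall fun θ t ht => hC (t, θ) ⟨ht, mem_univ _⟩)
    (integrable_const C)
    (Filter.Eventually.of_forall fun θ t _ => hdiff t θ)
  have h0 : ∫ θ, D (0, θ) ∂sphereMeasure n = 0 := by
    have := hmain.2
    simp only [hconst] at this
    exact (this.unique (hasDerivAt_const _ _))
  refine Eq.trans (integral_congr_ae (Filter.Eventually.of_forall fun θ => ?_)) h0
  show _ = fderiv ℝ f (r • rotLin c a 0 (θ : Pt n)) (r • rotVel c a (0, θ))
  rw [rotLin_zero, rotVel, map_smul, map_add, map_smul, map_smul]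
  simp only [Real.sin_zero, Real.cos_zero, smul_eq_mul, PiLp.smul_apply, pd]
  ring

/-- The flat divergence of a tangential field integrates to zero over a sphere. -/
theorem integral_div_tangent {U : Set (Pt n)} (hU : IsOpen U) {r : ℝ} (hr : 0 < r)
    (hS : ∀ x, ‖x‖ = r → x ∈ U) {X : Pt n → Fin n → ℝ}
    (hX : ∀ a, ContDiffOn ℝ 1 (fun y => X y a) U) (ht : ∀ x ∈ U, ∑ a, x a * X x a = 0) :
    ∫ θ : sphere (0 : Pt n) 1, ∑ a, pd a (fun y => X y a) (r • (θ : Pt n)) ∂sphereMeasure n
      = 0 := by
  let L : Fin n → Fin n → Pt n → ℝ := fun c a y =>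
    y c * pd a (fun z => z c * X z a) y - y a * pd c (fun z => z c * X z a) y
  have hg : ∀ c a, ContDiffOn ℝ 1 (fun z => z c * X z a) U := fun c a =>
    (contDiff_coord c).contDiffOn.mul (hX a)
  have key : ∀ x ∈ U, ∑ c, ∑ a, L c a x = rsq x * ∑ a, pd a (fun y => X y a) x := by
    intro x hx
    have hd : ∀ a, DifferentiableAt ℝ (fun y => X y a) x := fun a =>
      ((hX a).differentiableOn one_ne_zero).differentiableAt (hU.mem_nhds hx)
    have htc : ∀ c, X x c + ∑ a, x a * pd c (fun y => X y a) x = 0 := by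
      intro c
      have e : (fun y => ∑ a, y a * X y a) =ᶠ[𝓝 x] fun _ => (0 : ℝ) :=
        Filter.eventually_of_mem (hU.mem_nhds hx) ht
      have h := pd_congr (i := c) e
      rw [pd_const, pd_sum fun a _ => (differentiableAt_coord a).fun_mul (hd a)] at h
      simp only [pd_mul (differentiableAt_coord _) (hd _), pd_coord, Finset.sum_add_distrib] at h
      simpa using h
    calc ∑ c, ∑ a, L c a x
        = ∑ c, ∑ a, (x c * ((if c = a then 1 else 0) * X x a)
          + x c * x c * pd a (fun y => X y a) x - x a * X x a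
          - x c * (x a * pd c (fun y => X y a) x)) := by
          refine Finset.sum_congr rfl fun c _ => Finset.sum_congr rfl fun a _ => ?_
          simp only [L, pd_mul (differentiableAt_coord _) (hd _), pd_coord, if_true]
          ring
      _ = ∑ c, (rsq x * 0 + x c * X x c + x c * x c * (∑ a, pd a (fun y => X y a) x) - 0
          + x c * X x c) := by
          refine Finset.sum_congr rfl fun c _ => ?_
          simp only [Finset.sum_sub_distrib, Finset.sum_add_distrib, ← Finset.mul_sum, ht x hx]
          simp only [ite_mul, one_mul, zero_mul, Finset.sum_ite_eq, Finset.mem_univ, if_true]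
          linear_combination (-x c) * htc c
      _ = _ := by
          simp only [Finset.sum_add_distrib, Finset.sum_sub_distrib, ← Finset.sum_mul, ht x hx]
          simp [rsq]
  have hLc : ∀ c a, Continuous fun θ : sphere (0 : Pt n) 1 => L c a (r • (θ : Pt n)) := by
    intro c a
    refine ContinuousOn.comp_continuous (s := U) (g := L c a) (f := fun θ : sphere (0 : Pt n) 1 => r • (θ : Pt n))
      ?_ (continuous_subtype_val.const_smul r) (smul_sphere_mem hr hS)
    exact ((contDiff_coord (k := 0) c).continuous.continuousOn.mul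
      (continuousOn_pd hU (hg c a) a)).sub ((contDiff_coord (k := 0) a).continuous.continuousOn.mul
      (continuousOn_pd hU (hg c a) c))
  have h : ∫ θ : sphere (0 : Pt n) 1, ∑ c, ∑ a, L c a (r • (θ : Pt n)) ∂sphereMeasure n = 0 := by
    rw [integral_finsetSum _ fun c _ => integrable_finsetSum _ fun a _ => integrable_sphere (hLc c a)]
    refine Finset.sum_eq_zero fun c _ => ?_
    rw [integral_finsetSum _ fun a _ => integrable_sphere (hLc c a)]
    exact Finset.sum_eq_zero fun a _ => integral_rot hU hr hS (hg c a) c a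
  have e : ∀ θ : sphere (0 : Pt n) 1, ∑ c, ∑ a, L c a (r • (θ : Pt n))
      = r ^ 2 * ∑ a, pd a (fun y => X y a) (r • (θ : Pt n)) := fun θ => by
    rw [key _ (smul_sphere_mem hr hS θ), rsq_eq, norm_smul, norm_eq_of_mem_sphere θ, mul_one,
      Real.norm_of_nonneg hr.le]
  simp only [e, integral_const_mul] at h
  exact (mul_eq_zero.1 h).resolve_left (pow_ne_zero 2 hr.ne')

end Vale.P366
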