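import Vale.Agent.P366.Defs

/-!
# Partial derivatives (P366)
-/

open scoped Topology

namespace Vale.P366

variable {n : ℕ} {f g : Pt n → ℝ} {x : Pt n}

/-- The squared Euclidean norm, as a sum. -/
def rsq (x : Pt n) : ℝ := ∑ k, x k * x k

lemma rsq_eq (x : Pt n) : rsq x = ‖x‖ ^ 2 := by
  rw [PiLp.norm_sq_eq_of_L2]
  exact Finset.sum_congr rfl fun k _ => by simp [sq]

lemma rsq_pos (hx : x ≠ 0) : 0 < rsq x := by
  rw [rsq_eq]; positivity

lemma pd_congr {i : Fin n} (h : f =ᶠ[𝓝 x] g) : pd i f x = pd i g x := by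
  simp only [pd, h.fderiv_eq]

lemma pd_const (i : Fin n) (c : ℝ) : pd i (fun _ : Pt n => c) x = 0 := by
  simp [pd]

lemma pd_add {i : Fin n} (hf : DifferentiableAt ℝ f x) (hg : DifferentiableAt ℝ g x) :
    pd i (fun y => f y + g y) x = pd i f x + pd i g x := by
  simp [pd, fderiv_fun_add hf hg]

lemma pd_sub {i : Fin n} (hf : DifferentiableAt ℝ f x) (hg : DifferentiableAt ℝ g x) :
    pd i (fun y => f y - g y) x = pd i f x - pd i g x := by
  simp [pd, fderiv_fun_sub hf hg]

lemma pd_neg {i : Fin n} : pd i (fun y => -f y) x = -pd i f x := by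
  simp [pd]

lemma pd_mul {i : Fin n} (hf : DifferentiableAt ℝ f x) (hg : DifferentiableAt ℝ g x) :
    pd i (fun y => f y * g y) x = pd i f x * g x + f x * pd i g x := by
  simp [pd, fderiv_fun_mul hf hg]; ring

lemma pd_const_mul {i : Fin n} (c : ℝ) (hf : DifferentiableAt ℝ f x) :
    pd i (fun y => c * f y) x = c * pd i f x := by
  rw [pd_mul (differentiableAt_const c) hf, pd_const]; ring

lemma pd_sum {ι : Type*} {s : Finset ι} {i : Fin n} {F : ι → Pt n → ℝ}
    (hF : ∀ j ∈ s, DifferentiableAt ℝ (F j) x) :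
    pd i (fun y => ∑ j ∈ s, F j y) x = ∑ j ∈ s, pd i (F j) x := by
  simp [pd, fderiv_fun_sum hF]

lemma pd_coord (i j : Fin n) : pd i (fun y : Pt n => y j) x = if j = i then 1 else 0 := by
  have : (fun y : Pt n => y j) = (EuclideanSpace.proj j : Pt n →L[ℝ] ℝ) := rfl
  rw [pd, this, ContinuousLinearMap.fderiv]
  simp [PiLp.single_apply]

lemma differentiableAt_coord (j : Fin n) : DifferentiableAt ℝ (fun y : Pt n => y j) x :=
  (EuclideanSpace.proj j : Pt n →L[ℝ] ℝ).differentiableAt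

lemma contDiff_coord (j : Fin n) {k : WithTop ℕ∞} : ContDiff ℝ k (fun y : Pt n => y j) :=
  (EuclideanSpace.proj j : Pt n →L[ℝ] ℝ).contDiff

lemma pd_inv {i : Fin n} (hf : DifferentiableAt ℝ f x) (h0 : f x ≠ 0) :
    pd i (fun y => (f y)⁻¹) x = -pd i f x / f x ^ 2 := by
  have h1 : pd i (fun y => f y * (f y)⁻¹) x = 0 := by
    have : (fun y => f y * (f y)⁻¹) =ᶠ[𝓝 x] fun _ => (1 : ℝ) :=
      (hf.continuousAt.eventually_ne h0).mono fun y hy => mul_inv_cancel₀ hy
    rw [pd_congr this, pd_const]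
  rw [pd_mul hf (hf.fun_inv h0)] at h1
  field_simp at h1 ⊢
  linarith

lemma differentiableAt_rsq : DifferentiableAt ℝ (rsq (n := n)) x :=
  DifferentiableAt.fun_sum fun k _ => (differentiableAt_coord k).fun_mul (differentiableAt_coord k)

lemma contDiff_rsq {k : WithTop ℕ∞} : ContDiff ℝ k (rsq (n := n)) :=
  ContDiff.sum fun j _ => (contDiff_coord j).mul (contDiff_coord j)

lemma pd_rsq (i : Fin n) : pd i rsq x = 2 * x i := by
  show pd i (fun y => ∑ k, y k * y k) x = _
  rw [pd_sum fun k _ => (differentiableAt_coord k).fun_mul (differentiableAt_coord k)]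
  simp [pd_mul (differentiableAt_coord _) (differentiableAt_coord _), pd_coord,
    Finset.sum_add_distrib]
  ring

lemma fderiv_apply_eq_sum (f : Pt n → ℝ) (x v : Pt n) :
    fderiv ℝ f x v = ∑ i, v i * pd i f x := by
  conv_lhs => rw [← (EuclideanSpace.basisFun (Fin n) ℝ).sum_repr v]
  simp [pd]

/-- The derivative along a ray. -/
lemma hasDerivAt_ray {θ : Pt n} {t : ℝ} (hf : DifferentiableAt ℝ f (t • θ)) :
    HasDerivAt (fun s : ℝ => f (s • θ)) (∑ i, θ i * pd i f (t • θ)) t := by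
  rw [← fderiv_apply_eq_sum]
  have h : HasDerivAt (fun s : ℝ => s • θ) θ t := by
    simpa using (hasDerivAt_id t).smul_const θ
  exact hf.hasFDerivAt.comp_hasDerivAt t h

lemma contDiffAt_pd {i : Fin n} {k : ℕ} (hf : ContDiffAt ℝ (k + 1) f x) :
    ContDiffAt ℝ k (pd i f) x :=
  (hf.fderiv_right le_rfl).clm_apply contDiffAt_const

lemma pd_comm {i j : Fin n} (hf : ContDiffAt ℝ 2 f x) :
    pd i (pd j f) x = pd j (pd i f) x := by
  have h : ∀ a b : Fin n, pd a (pd b f) x
      = fderiv ℝ (fderiv ℝ f) x (EuclideanSpace.single a 1) (EuclideanSpace.single b 1) := by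
    intro a b
    show fderiv ℝ (fun y => fderiv ℝ f y (EuclideanSpace.single b 1)) x _ = _
    rw [fderiv_clm_apply ((hf.fderiv_right (m := 1) le_rfl).differentiableAt one_ne_zero)
      (differentiableAt_const _)]
    simp
  rw [h, h]
  exact hf.isSymmSndFDerivAt (by simp) _ _

end Vale.P366
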