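import Vale.Agent.P366.Metric

/-!
# The scalar curvature of a quasi-spherical metric (P366)
-/

open scoped Topology

namespace Vale.P366

variable {n : ℕ}

/-- The gradient of the lapse. -/
noncomputable def gu (u : Pt n → ℝ) (x : Pt n) (i : Fin n) : ℝ := pd i u x

/-- `x · ∇u`. -/
noncomputable def du (u : Pt n → ℝ) (x : Pt n) : ℝ := dot x (gu u x)

/-- The contraction of the Hessian with `x`, as a vector. -/
noncomputable def hu (u : Pt n → ℝ) (x : Pt n) (i : Fin n) : ℝ := ∑ k, x k * pd k (pd i u) x

/-- The Laplacian. -/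
noncomputable def lap (u : Pt n → ℝ) (x : Pt n) : ℝ := ∑ k, pd k (pd k u) x

noncomputable def c1 (u : Pt n → ℝ) (x : Pt n) : ℝ := (u x)⁻¹ * (rsq x)⁻¹
noncomputable def c3 (u : Pt n → ℝ) (x : Pt n) : ℝ := -u x * (rsq x)⁻¹
noncomputable def c4 (u : Pt n → ℝ) (x : Pt n) : ℝ :=
  vf u x * (u x * du u x - 1) * (rsq x)⁻¹

lemma sum_mul_ite (f : Fin n → ℝ) (j : Fin n) :
    ∑ k, f k * (if j = k then (1 : ℝ) else 0) = f j := by
  simp

namespace QS

variable {g : Tens n} {u : Pt n → ℝ} {U : Set (Pt n)} (h : QS g u U) {x : Pt n} (hx : x ∈ U)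

include h hx

lemma differentiableAt_vf : DifferentiableAt ℝ (vf u) x :=
  (((contDiffAt_const.sub (h.contDiffAt_pf hx (k := 1) (by norm_num))).div
    contDiff_rsq.contDiffAt (h.rsq_pos hx).ne').differentiableAt one_ne_zero)

lemma differentiableAt_du : DifferentiableAt ℝ (du u) x := by
  show DifferentiableAt ℝ (fun y => ∑ k, y k * pd k u y) x
  exact DifferentiableAt.fun_sum fun k _ => (differentiableAt_coord k).fun_mul (h.differentiableAt_pd_u hx k)

lemma differentiableAt_c1 : DifferentiableAt ℝ (c1 u) x :=
  ((h.differentiableAt_u hx).fun_inv (h.pos x hx).ne').fun_mul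
    (differentiableAt_rsq.fun_inv (h.rsq_pos hx).ne')

lemma differentiableAt_c3 : DifferentiableAt ℝ (c3 u) x :=
  (h.differentiableAt_u hx).fun_neg.fun_mul (differentiableAt_rsq.fun_inv (h.rsq_pos hx).ne')

lemma differentiableAt_c4 : DifferentiableAt ℝ (c4 u) x :=
  ((h.differentiableAt_vf hx).fun_mul
    (((h.differentiableAt_u hx).fun_mul (h.differentiableAt_du hx)).sub_const 1)).fun_mul
    (differentiableAt_rsq.fun_inv (h.rsq_pos hx).ne')

lemma dot_gw : dw u x = 2 * u x * du u x / rsq x - 2 * (u x ^ 2 - 1) / rsq x := by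
  have hr := (h.rsq_pos hx).ne'
  calc dw u x = ∑ i, (2 * u x / rsq x * (x i * gu u x i)
        + -(2 * (u x ^ 2 - 1) / rsq x ^ 2) * (x i * x i)) :=
        Finset.sum_congr rfl fun i _ => by rw [h.gw_eq hx]; simp only [gu]; ring
    _ = 2 * u x / rsq x * du u x + -(2 * (u x ^ 2 - 1) / rsq x ^ 2) * rsq x := by
        simp only [Finset.sum_add_distrib, ← Finset.mul_sum, du, dot, rsq]
    _ = _ := by field_simp; ring

lemma christoffel_u (k i j : Fin n) : christoffel g k i j x
    = c1 u x * x k * (gu u x i * x j + gu u x j * x i) + vf u x * x k * (if i = j then 1 else 0)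
      + c3 u x * gu u x k * (x i * x j) + c4 u x * x k * (x i * x j) := by
  have hr := (h.rsq_pos hx).ne'
  have h0 := (h.pos x hx).ne'
  rw [h.christoffel_eq hx, h.gw_eq hx, h.gw_eq hx, h.gw_eq hx, bw, h.dot_gw hx]
  simp only [c1, c3, c4, gu, vf, wf, pf]
  field_simp
  ring

lemma christoffel_trace (i : Fin n) : ∑ k, christoffel g k i k x = gu u x i / u x := by
  have hr := (h.rsq_pos hx).ne'
  have h0 := (h.pos x hx).ne'
  calc ∑ k, christoffel g k i k x
      = ∑ k, (c1 u x * gu u x i * (x k * x k) + (c1 u x + c3 u x) * x i * (x k * gu u x k)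
          + vf u x * (x k * (if i = k then 1 else 0)) + c4 u x * x i * (x k * x k)) :=
        Finset.sum_congr rfl fun k _ => by rw [h.christoffel_u hx]; ring
    _ = c1 u x * gu u x i * rsq x + (c1 u x + c3 u x) * x i * du u x + vf u x * x i
          + c4 u x * x i * rsq x := by
        simp only [Finset.sum_add_distrib, ← Finset.mul_sum, sum_mul_ite, rsq, du, dot]
    _ = _ := by simp only [c1, c3, c4, vf]; field_simp; ring

/-- The trace `g^{ij} Γ^k_{ij}`. -/
lemma christoffel_contract (k : Fin n) : ∑ i, ∑ j, ginv g x i j * christoffel g k i j x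
    = x k * (c1 u x * (2 * pf u x * du u x) + vf u x * (n - 1 + pf u x)
        + c4 u x * (pf u x * rsq x)) + c3 u x * (pf u x * rsq x) * gu u x k := by
  have hp := h.one_sub_v hx
  calc ∑ i, ∑ j, ginv g x i j * christoffel g k i j x
      = c1 u x * x k * (∑ i, ∑ j, ginv g x i j * (gu u x i * x j))
        + c1 u x * x k * (∑ i, ∑ j, ginv g x i j * (x i * gu u x j))
        + vf u x * x k * (∑ i, ∑ j, ginv g x i j * (if i = j then (1 : ℝ) else 0))
        + (c3 u x * gu u x k + c4 u x * x k) * (∑ i, ∑ j, ginv g x i j * (x i * x j)) := by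
        simp only [Finset.mul_sum, ← Finset.sum_add_distrib]
        exact Finset.sum_congr rfl fun i _ => Finset.sum_congr rfl fun j _ => by
          rw [h.christoffel_u hx]; ring
    _ = _ := by
        rw [h.ginv_dyad hx, h.ginv_dyad hx, h.ginv_delta hx, h.ginv_dyad hx, dot_comm (gu u x) x,
          ← rsq_eq_dot, ← du, ← hp]
        ring

/-- The divergence `∂_k Γ^k_{ij}`. -/
lemma sum_pd_christoffel (i j : Fin n) : ∑ k, pd k (christoffel g k i j) x
    = ((∑ k, x k * pd k (c1 u) x) + (n + 1) * c1 u x + c3 u x) * (gu u x i * x j + gu u x j * x i)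
      + c1 u x * (hu u x i * x j + hu u x j * x i)
      + ((∑ k, x k * pd k (vf u) x) + n * vf u x) * (if i = j then 1 else 0)
      + (c3 u x * lap u x + dot (gu u x) (fun k => pd k (c3 u) x)
        + (∑ k, x k * pd k (c4 u) x) + (n + 2) * c4 u x) * (x i * x j) := by
  have e : ∀ k, (christoffel g k i j) =ᶠ[𝓝 x] fun y =>
      c1 u y * y k * (pd i u y * y j + pd j u y * y i) + vf u y * y k * (if i = j then 1 else 0)
      + c3 u y * pd k u y * (y i * y j) + c4 u y * y k * (y i * y j) := fun k =>
    Filter.eventually_of_mem (h.mem_nhds hx) fun y hy => h.christoffel_u hy k i j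
  have hd : ∀ k, pd k (christoffel g k i j) x
      = (pd k (c1 u) x * x k + c1 u x * 1) * (gu u x i * x j + gu u x j * x i)
        + c1 u x * x k * (pd k (pd i u) x * x j + gu u x i * (if j = k then 1 else 0)
          + (pd k (pd j u) x * x i + gu u x j * (if i = k then 1 else 0)))
        + (pd k (vf u) x * x k + vf u x * 1) * (if i = j then 1 else 0)
        + ((pd k (c3 u) x * gu u x k + c3 u x * pd k (pd k u) x) * (x i * x j)
          + c3 u x * gu u x k * ((if i = k then 1 else 0) * x j + x i * (if j = k then 1 else 0)))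
        + ((pd k (c4 u) x * x k + c4 u x * 1) * (x i * x j)
          + c4 u x * x k * ((if i = k then 1 else 0) * x j + x i * (if j = k then 1 else 0))) := by
    intro k
    have d1 := h.differentiableAt_c1 hx
    have d2 := h.differentiableAt_vf hx
    have d3 := h.differentiableAt_c3 hx
    have d4 := h.differentiableAt_c4 hx
    have dg := fun l => h.differentiableAt_pd_u hx l
    have co := fun l => differentiableAt_coord (x := x) l
    have dA := (dg i).fun_mul (co j)
    have dB := (dg j).fun_mul (co i)
    have t1 := (d1.fun_mul (co k)).fun_mul (dA.fun_add dB)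
    have t2 := (d2.fun_mul (co k)).fun_mul (differentiableAt_const (if i = j then (1 : ℝ) else 0))
    have t3 := (d3.fun_mul (dg k)).fun_mul ((co i).fun_mul (co j))
    have t4 := (d4.fun_mul (co k)).fun_mul ((co i).fun_mul (co j))
    rw [pd_congr (e k), pd_add ((t1.fun_add t2).fun_add t3) t4, pd_add (t1.fun_add t2) t3,
      pd_add t1 t2, pd_mul (d1.fun_mul (co k)) (dA.fun_add dB), pd_mul d1 (co k), pd_add dA dB,
      pd_mul (dg i) (co j), pd_mul (dg j) (co i),
      pd_mul (d2.fun_mul (co k)) (differentiableAt_const _), pd_mul d2 (co k), pd_const,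
      pd_mul (d3.fun_mul (dg k)) ((co i).fun_mul (co j)), pd_mul d3 (dg k),
      pd_mul (d4.fun_mul (co k)) ((co i).fun_mul (co j)), pd_mul d4 (co k),
      pd_mul (co i) (co j), pd_coord, pd_coord, pd_coord, if_pos rfl]
    simp only [gu]
    ring
  calc ∑ k, pd k (christoffel g k i j) x
      = ∑ k, ((gu u x i * x j + gu u x j * x i) * (x k * pd k (c1 u) x)
        + c1 u x * (gu u x i * x j + gu u x j * x i)
        + c1 u x * x j * (x k * pd k (pd i u) x) + c1 u x * x i * (x k * pd k (pd j u) x)
        + c1 u x * gu u x i * (x k * (if j = k then 1 else 0))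
        + c1 u x * gu u x j * (x k * (if i = k then 1 else 0))
        + (if i = j then (1 : ℝ) else 0) * (x k * pd k (vf u) x)
        + vf u x * (if i = j then 1 else 0)
        + x i * x j * (gu u x k * pd k (c3 u) x)
        + c3 u x * (x i * x j) * pd k (pd k u) x
        + c3 u x * x j * (gu u x k * (if i = k then 1 else 0))
        + c3 u x * x i * (gu u x k * (if j = k then 1 else 0))
        + x i * x j * (x k * pd k (c4 u) x) + c4 u x * (x i * x j)
        + c4 u x * x j * (x k * (if i = k then 1 else 0))
        + c4 u x * x i * (x k * (if j = k then 1 else 0))) :=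
        Finset.sum_congr rfl fun k _ => by rw [hd]; ring
    _ = _ := by
        simp only [Finset.sum_add_distrib, ← Finset.mul_sum, Finset.sum_const, Finset.card_univ,
          Fintype.card_fin, nsmul_eq_mul, hu, lap, dot, sum_mul_ite]
        ring

lemma x_pd_vf : ∑ k, x k * pd k (vf u) x
    = 2 * du u x / (u x ^ 3 * rsq x) - 2 * vf u x := by
  have hr := (h.rsq_pos hx).ne'
  have h0 := (h.pos x hx).ne'
  have e : vf u = fun y => (1 - pf u y) * (rsq y)⁻¹ :=
    funext fun y => by simp [vf, pf, div_eq_mul_inv]
  have hp := h.differentiableAt_pf hx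
  calc ∑ k, x k * pd k (vf u) x
      = ∑ k, (2 / (u x ^ 3 * rsq x) * (x k * gu u x k)
          + -(2 * (1 - pf u x) / rsq x ^ 2) * (x k * x k)) :=
        Finset.sum_congr rfl fun k _ => by
          rw [e, pd_mul (hp.const_sub 1) (differentiableAt_rsq.fun_inv hr),
            pd_sub (differentiableAt_const _) hp, pd_const, h.pd_pf hx,
            pd_inv differentiableAt_rsq hr, pd_rsq]
          simp only [gu]
          field_simp
          ring
    _ = 2 / (u x ^ 3 * rsq x) * du u x + -(2 * (1 - pf u x) / rsq x ^ 2) * rsq x := by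
        simp only [Finset.sum_add_distrib, ← Finset.mul_sum, du, dot, rsq]
    _ = _ := by simp only [vf, pf]; field_simp; ring

lemma x_pd_c1 : ∑ k, x k * pd k (c1 u) x = -(du u x / u x + 2) * c1 u x := by
  have hr := (h.rsq_pos hx).ne'
  have h0 := (h.pos x hx).ne'
  have hu' := h.differentiableAt_u hx
  calc ∑ k, x k * pd k (c1 u) x
      = ∑ k, (-(1 / (u x ^ 2 * rsq x)) * (x k * gu u x k)
          + -(2 / (u x * rsq x ^ 2)) * (x k * x k)) :=
        Finset.sum_congr rfl fun k _ => by
          show x k * pd k (fun y => (u y)⁻¹ * (rsq y)⁻¹) x = _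
          rw [pd_mul (hu'.fun_inv h0) (differentiableAt_rsq.fun_inv hr), pd_inv hu' h0,
            pd_inv differentiableAt_rsq hr, pd_rsq]
          simp only [gu]
          field_simp
    _ = -(1 / (u x ^ 2 * rsq x)) * du u x + -(2 / (u x * rsq x ^ 2)) * rsq x := by
        simp only [Finset.sum_add_distrib, ← Finset.mul_sum, du, dot, rsq]
    _ = _ := by simp only [c1]; field_simp; ring

lemma gu_pd_c3 : dot (gu u x) (fun k => pd k (c3 u) x)
    = -dot (gu u x) (gu u x) / rsq x + 2 * u x * du u x / rsq x ^ 2 := by
  have hr := (h.rsq_pos hx).ne'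
  have hu' := h.differentiableAt_u hx
  calc dot (gu u x) (fun k => pd k (c3 u) x)
      = ∑ k, (-(1 / rsq x) * (gu u x k * gu u x k)
          + 2 * u x / rsq x ^ 2 * (x k * gu u x k)) :=
        Finset.sum_congr rfl fun k _ => by
          show gu u x k * pd k (fun y => -u y * (rsq y)⁻¹) x = _
          rw [pd_mul hu'.fun_neg (differentiableAt_rsq.fun_inv hr), pd_neg,
            pd_inv differentiableAt_rsq hr, pd_rsq]
          simp only [gu]
          field_simp
    _ = _ := by
        simp only [Finset.sum_add_distrib, ← Finset.mul_sum, du, dot]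
        ring

lemma x_pd_c4 : ∑ k, x k * pd k (c4 u) x
    = ((2 * du u x / (u x ^ 3 * rsq x) - 2 * vf u x) * (u x * du u x - 1)
      + vf u x * (du u x ^ 2 + u x * (du u x + dot x (hu u x)))) / rsq x - 2 * c4 u x := by
  have hr := (h.rsq_pos hx).ne'
  have hu' := h.differentiableAt_u hx
  have hd := h.differentiableAt_du hx
  have hv := h.differentiableAt_vf hx
  have hdd : ∑ k, x k * pd k (du u) x = du u x + dot x (hu u x) := by
    calc ∑ k, x k * pd k (du u) x
        = ∑ k, (x k * gu u x k + x k * ∑ l, x l * pd k (pd l u) x) :=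
          Finset.sum_congr rfl fun k _ => by
            show x k * pd k (fun y => ∑ l, y l * pd l u y) x = _
            rw [pd_sum fun l _ => (differentiableAt_coord l).fun_mul (h.differentiableAt_pd_u hx l)]
            simp only [pd_mul (differentiableAt_coord _) (h.differentiableAt_pd_u hx _), pd_coord]
            simp [Finset.sum_add_distrib, gu]
            ring
      _ = du u x + dot x (hu u x) := by
          simp only [Finset.sum_add_distrib, du, dot, hu, Finset.mul_sum]
          congr 1
          rw [Finset.sum_comm]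
          exact Finset.sum_congr rfl fun i _ => Finset.sum_congr rfl fun j _ => by ring
  calc ∑ k, x k * pd k (c4 u) x
      = ∑ k, ((u x * du u x - 1) / rsq x * (x k * pd k (vf u) x)
          + vf u x * du u x / rsq x * (x k * gu u x k)
          + vf u x * u x / rsq x * (x k * pd k (du u) x)
          + -(2 * c4 u x / rsq x) * (x k * x k)) :=
        Finset.sum_congr rfl fun k _ => by
          show x k * pd k (fun y => vf u y * (u y * du u y - 1) * (rsq y)⁻¹) x = _
          rw [pd_mul (hv.fun_mul ((hu'.fun_mul hd).sub_const 1))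
              (differentiableAt_rsq.fun_inv hr),
            pd_mul hv ((hu'.fun_mul hd).sub_const 1),
            pd_sub (hu'.fun_mul hd) (differentiableAt_const _), pd_mul hu' hd, pd_const,
            pd_inv differentiableAt_rsq hr, pd_rsq]
          simp only [gu, c4]
          field_simp
          ring
    _ = _ := by
        simp only [Finset.sum_add_distrib, ← Finset.mul_sum]
        rw [h.x_pd_vf hx, hdd]
        have er : ∑ k, x k * x k = rsq x := rfl
        have ed : ∑ k, x k * gu u x k = du u x := rfl
        simp only [ed, er, c4]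
        field_simp
        ring

end QS

end Vale.P366
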