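import Mathlib

/-!
# Initial data in one chart (P366)

Everything is computed from the metric components `g` and from `K` by the usual coordinate
formulas.
-/

open scoped Matrix
open MeasureTheory

namespace Vale.P366

/-- Coordinate space. -/
abbrev Pt (n : ℕ) := EuclideanSpace ℝ (Fin n)

variable {n : ℕ}

/-- A symmetric 2-tensor field, by components. -/
abbrev Tens (n : ℕ) := Pt n → Matrix (Fin n) (Fin n) ℝ

/-- The `i`th partial derivative. -/
noncomputable def pd (i : Fin n) (f : Pt n → ℝ) (x : Pt n) : ℝ :=
  fderiv ℝ f x (EuclideanSpace.single i 1)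

/-- The inverse metric. -/
noncomputable def ginv (g : Tens n) (x : Pt n) : Matrix (Fin n) (Fin n) ℝ := (g x)⁻¹

/-- The Christoffel symbol with upper index `k`. -/
noncomputable def christoffel (g : Tens n) (k i j : Fin n) (x : Pt n) : ℝ :=
  2⁻¹ * ∑ l, ginv g x k l *
    (pd i (fun y => g y j l) x + pd j (fun y => g y i l) x - pd l (fun y => g y i j) x)

/-- The Ricci tensor. -/
noncomputable def ricci (g : Tens n) (x : Pt n) (i j : Fin n) : ℝ :=
  ∑ k, (pd k (christoffel g k i j) x - pd j (christoffel g k i k) x
    + ∑ l, (christoffel g k k l x * christoffel g l i j x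
      - christoffel g k j l x * christoffel g l i k x))

/-- The scalar curvature. -/
noncomputable def scalarCurv (g : Tens n) (x : Pt n) : ℝ :=
  ∑ i, ∑ j, ginv g x i j * ricci g x i j

/-- The trace with respect to `g`. -/
noncomputable def traceG (g K : Tens n) (x : Pt n) : ℝ := ∑ i, ∑ j, ginv g x i j * K x i j

/-- The squared norm with respect to `g`. -/
noncomputable def normSqG (g K : Tens n) (x : Pt n) : ℝ :=
  ∑ i, ∑ j, ∑ p, ∑ m, ginv g x i p * ginv g x j m * K x i j * K x p m

/-- The momentum tensor `π = K - (tr K) g`. -/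
noncomputable def momTensor (g K : Tens n) : Tens n :=
  fun x => K x - traceG g K x • g x

/-- The energy density `μ`. -/
noncomputable def energyDensity (g K : Tens n) (x : Pt n) : ℝ :=
  (scalarCurv g x + traceG g K x ^ 2 - normSqG g K x) / 2

/-- The momentum density `J = div π`. -/
noncomputable def momDensity (g K : Tens n) (x : Pt n) (i : Fin n) : ℝ :=
  ∑ a, ∑ c, ginv g x a c * (pd a (fun y => momTensor g K y c i) x
    - ∑ l, (christoffel g l a c x * momTensor g K x l i
      + christoffel g l a i x * momTensor g K x c l))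

/-- The dominant energy condition at a point. -/
def DEC (g K : Tens n) (x : Pt n) : Prop :=
  Real.sqrt (∑ i, ∑ j, ginv g x i j * momDensity g K x i * momDensity g K x j)
    ≤ energyDensity g K x

/-- The outward conormal of the coordinate sphere through a point, of unit `g`-length. -/
noncomputable def conormal (g : Tens n) (x : Pt n) (i : Fin n) : ℝ :=
  x i / Real.sqrt (∑ a, ∑ c, ginv g x a c * x a * x c)

/-- The inverse of the metric induced on the coordinate sphere, extended by zero. -/
noncomputable def sphereInv (g : Tens n) (x : Pt n) (i j : Fin n) : ℝ :=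
  ginv g x i j - (∑ a, ginv g x i a * conormal g x a) * (∑ a, ginv g x j a * conormal g x a)

/-- The mean curvature `div_S ν` of the coordinate sphere. -/
noncomputable def meanCurv (g : Tens n) (x : Pt n) : ℝ :=
  ∑ i, ∑ j, sphereInv g x i j *
    (pd i (fun y => conormal g y j) x - ∑ l, christoffel g l i j x * conormal g x l)

/-- The trace of `K` on the coordinate sphere. -/
noncomputable def sphereTrace (g K : Tens n) (x : Pt n) : ℝ :=
  ∑ i, ∑ j, sphereInv g x i j * K x i j

/-- The tangential part of `K(ν,·)` on the coordinate sphere, as a vector. -/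
noncomputable def mixedPart (g K : Tens n) (x : Pt n) (a : Fin n) : ℝ :=
  ∑ i, sphereInv g x a i * ∑ j, ∑ l, K x i j * ginv g x j l * conormal g x l

/-- The area measure of the unit sphere. -/
noncomputable def sphereMeasure (n : ℕ) : Measure (Metric.sphere (0 : Pt n) 1) :=
  (volume : Measure (Pt n)).toSphere

/-- The area of the unit sphere. -/
noncomputable def sphereArea (n : ℕ) : ℝ := (sphereMeasure n).real Set.univ

/-- The flux whose limit is the ADM energy. -/
noncomputable def energyFlux (g : Tens n) (R : ℝ) : ℝ :=
  (2 * ((n : ℝ) - 1) * sphereArea n)⁻¹ *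
    ∫ θ : Metric.sphere (0 : Pt n) 1, (∑ i, ∑ j,
      (pd j (fun y => g y i j) (R • (θ : Pt n)) - pd i (fun y => g y j j) (R • (θ : Pt n)))
        * (θ : Pt n) i) * R ^ (n - 1) ∂sphereMeasure n

/-- The flux whose limit is the ADM momentum. -/
noncomputable def momentumFlux (g K : Tens n) (i : Fin n) (R : ℝ) : ℝ :=
  2 * (2 * ((n : ℝ) - 1) * sphereArea n)⁻¹ *
    ∫ θ : Metric.sphere (0 : Pt n) 1, (∑ j,
      momTensor g K (R • (θ : Pt n)) i j * (θ : Pt n) j) * R ^ (n - 1) ∂sphereMeasure n

end Vale.P366
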