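import Vale.Agent.P366.Scalar

/-!
# The extrinsic data on the coordinate spheres (P366)
-/

open scoped Topology

namespace Vale.P366

variable {n : ℕ}

/-- The orthogonal projection on the coordinate sphere. -/
noncomputable def proj (x : Pt n) (i j : Fin n) : ℝ :=
  (if i = j then 1 else 0) - x i * x j / rsq x

/-- The Euclidean radius. -/
noncomputable def rad (x : Pt n) : ℝ := Real.sqrt (rsq x)

/-- The unit normal vector. -/
noncomputable def nu (u : Pt n → ℝ) (x : Pt n) (i : Fin n) : ℝ := x i / (u x * rad x)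

/-- One `(n-1)`st of the trace on the sphere. -/
noncomputable def bF (K : Tens n) (x : Pt n) : ℝ :=
  (∑ i, ∑ j, proj x i j * K x i j) / (n - 1)

/-- The tangential part of `K(ν,·)`. -/
noncomputable def kF (u : Pt n → ℝ) (K : Tens n) (x : Pt n) (a : Fin n) : ℝ :=
  ∑ i, proj x a i * ∑ j, K x i j * nu u x j

/-- `K(ν,ν)`. -/
noncomputable def aF (u : Pt n → ℝ) (K : Tens n) (x : Pt n) : ℝ :=
  ∑ i, ∑ j, K x i j * nu u x i * nu u x j

/-- The tangential gradient of the lapse. -/
noncomputable def tau (u : Pt n → ℝ) (x : Pt n) (i : Fin n) : ℝ :=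
  gu u x i - x i * du u x / rsq x

lemma proj_symm (x : Pt n) (i j : Fin n) : proj x i j = proj x j i := by
  simp only [proj, eq_comm (a := i) (b := j), mul_comm (x i)]

lemma proj_vec {x : Pt n} (a : Fin n → ℝ) (i : Fin n) :
    ∑ j, proj x i j * a j = a i - x i * dot x a / rsq x := by
  simp only [proj, sub_mul, Finset.sum_sub_distrib, dot, Finset.mul_sum, Finset.sum_div]
  simp [mul_div_assoc, mul_assoc, div_mul_eq_mul_div]

lemma proj_x {x : Pt n} (hx : x ≠ 0) (i : Fin n) : ∑ j, proj x i j * x j = 0 := by
  have := (rsq_pos hx).ne'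
  rw [proj_vec, show dot x.ofLp x.ofLp = rsq x from rfl]
  field_simp
  ring

lemma proj_sq {x : Pt n} (hx : x ≠ 0) (i p : Fin n) :
    ∑ a, proj x a i * proj x a p = proj x i p := by
  calc ∑ a, proj x a i * proj x a p = ∑ a, proj x i a * ((if a = p then (1 : ℝ) else 0)
        - x p / rsq x * x a) :=
        Finset.sum_congr rfl fun a _ => by rw [proj_symm x a i]; simp only [proj]; ring
    _ = ∑ a, (proj x i a * (if a = p then (1 : ℝ) else 0) - x p / rsq x * (proj x i a * x a)) :=
        Finset.sum_congr rfl fun a _ => by ring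
    _ = proj x i p - x p / rsq x * 0 := by
        rw [Finset.sum_sub_distrib, ← Finset.mul_sum, proj_x hx]
        simp
    _ = _ := by ring

lemma proj_trace {x : Pt n} (hx : x ≠ 0) : ∑ i, proj x i i = n - 1 := by
  have := (rsq_pos hx).ne'
  simp only [proj, if_true, Finset.sum_sub_distrib, ← Finset.sum_div]
  rw [show ∑ k, x k * x k = rsq x from rfl, div_self this]
  simp

lemma rad_pos {x : Pt n} (hx : x ≠ 0) : 0 < rad x := Real.sqrt_pos.2 (rsq_pos hx)

lemma rad_sq {x : Pt n} : rad x * rad x = rsq x :=
  Real.mul_self_sqrt (Finset.sum_nonneg fun k _ => mul_self_nonneg (x k))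

lemma rad_eq (x : Pt n) : rad x = ‖x‖ := by
  rw [rad, rsq_eq, Real.sqrt_sq (norm_nonneg x)]

lemma differentiableAt_rad {x : Pt n} (hx : x ≠ 0) : DifferentiableAt ℝ rad x :=
  differentiableAt_rsq.sqrt (rsq_pos hx).ne'

lemma pd_rad {x : Pt n} (hx : x ≠ 0) (i : Fin n) : pd i rad x = x i / rad x := by
  have hd := differentiableAt_rad hx
  have h : pd i (fun y => rad y * rad y) x = pd i rsq x :=
    pd_congr (Filter.Eventually.of_forall fun y => rad_sq)
  rw [pd_mul hd hd, pd_rsq] at h
  rw [eq_div_iff (rad_pos hx).ne']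
  linarith

namespace QS

variable {g : Tens n} {u : Pt n → ℝ} {U : Set (Pt n)} (h : QS g u U) {x : Pt n} (hx : x ∈ U)

include h hx

lemma nu_sq : rad x * rad x * (u x * u x) * (∑ i, nu u x i * nu u x i) = rsq x := by
  have := (rad_pos (h.ne0 x hx)).ne'
  have := (h.pos x hx).ne'
  simp only [nu, rsq, Finset.mul_sum]
  exact Finset.sum_congr rfl fun i _ => by field_simp

lemma ginv_split (i j : Fin n) : ginv g x i j = proj x i j + nu u x i * nu u x j := by
  have hr := (rad_pos (h.ne0 x hx)).ne'
  have h0 := (h.pos x hx).ne'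
  have hq := (h.rsq_pos hx).ne'
  rw [h.ginv_eq hx]
  simp only [proj, nu, vf, ← rad_sq (x := x)]
  field_simp
  ring

lemma conormal_eq (i : Fin n) : conormal g x i = u x * x i / rad x := by
  have h0 := h.pos x hx
  have hr := rad_pos (h.ne0 x hx)
  have e : ∑ a, ∑ c, ginv g x a c * x a * x c = (rad x / u x) ^ 2 := by
    simp only [mul_assoc]
    rw [h.ginv_dyad hx, show dot x.ofLp x.ofLp = rsq x from rfl, div_pow, sq (rad x), rad_sq]
    have := (h.rsq_pos hx).ne'
    simp only [vf]; field_simp; ring
  rw [conormal, e, Real.sqrt_sq (div_pos hr h0).le]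
  field_simp

lemma ginv_conormal (i : Fin n) : ∑ a, ginv g x i a * conormal g x a = nu u x i := by
  have h0 := (h.pos x hx).ne'
  have hr := (rad_pos (h.ne0 x hx)).ne'
  have hq := (h.rsq_pos hx).ne'
  calc ∑ a, ginv g x i a * conormal g x a
      = u x / rad x * ∑ a, ginv g x i a * x a := by
        rw [Finset.mul_sum]
        exact Finset.sum_congr rfl fun a _ => by rw [h.conormal_eq hx]; ring
    _ = _ := by
        rw [h.ginv_vec hx, show dot x.ofLp x.ofLp = rsq x from rfl]
        simp only [nu, vf]; field_simp; ring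

lemma sphereInv_eq (i j : Fin n) : sphereInv g x i j = proj x i j := by
  rw [sphereInv, h.ginv_conormal hx, h.ginv_conormal hx, h.ginv_split hx]
  ring

lemma sphereTrace_eq (K : Tens n) (hn : 2 ≤ n) :
    sphereTrace g K x = (n - 1) * bF K x := by
  have : (n : ℝ) - 1 ≠ 0 := by
    have : (2 : ℝ) ≤ n := by exact_mod_cast hn
    linarith
  simp only [sphereTrace, h.sphereInv_eq hx, bF]
  field_simp

lemma mixedPart_eq (K : Tens n) (a : Fin n) : mixedPart g K x a = kF u K x a := by
  simp only [mixedPart, kF, h.sphereInv_eq hx]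
  refine Finset.sum_congr rfl fun i _ => ?_
  congr 1
  refine Finset.sum_congr rfl fun j _ => ?_
  rw [← h.ginv_conormal hx j, Finset.mul_sum]
  exact Finset.sum_congr rfl fun l _ => by ring

lemma meanCurv_eq : meanCurv g x = (n - 1) / (u x * rad x) := by
  have hx0 := h.ne0 x hx
  have h0 := (h.pos x hx).ne'
  have hr := (rad_pos hx0).ne'
  have hq := (h.rsq_pos hx).ne'
  have hd : ∀ i j, pd i (fun y => conormal g y j) x
      = pd i (fun y => u y * (rad y)⁻¹) x * x j + u x / rad x * (if j = i then 1 else 0) := by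
    intro i j
    have e : (fun y => conormal g y j) =ᶠ[𝓝 x] fun y => u y * (rad y)⁻¹ * y j :=
      Filter.eventually_of_mem (h.mem_nhds hx) fun y hy => by
        show conormal g y j = _
        rw [h.conormal_eq hy]; ring
    rw [pd_congr e, pd_mul ((h.differentiableAt_u hx).fun_mul
      ((differentiableAt_rad hx0).fun_inv hr)) (differentiableAt_coord j), pd_coord]
    simp [div_eq_mul_inv]
  have hG : ∀ i j, ∑ l, christoffel g l i j x * conormal g x l
      = u x / rad x * (c1 u x * rsq x * (gu u x i * x j + gu u x j * x i)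
        + vf u x * rsq x * (if i = j then 1 else 0)
        + (c3 u x * du u x + c4 u x * rsq x) * (x i * x j)) := by
    intro i j
    calc ∑ l, christoffel g l i j x * conormal g x l
        = ∑ l, (u x / rad x * (c1 u x * (gu u x i * x j + gu u x j * x i)
            + vf u x * (if i = j then 1 else 0) + c4 u x * (x i * x j)) * (x l * x l)
          + u x / rad x * c3 u x * (x i * x j) * (x l * gu u x l)) :=
          Finset.sum_congr rfl fun l _ => by
            rw [h.christoffel_u hx, h.conormal_eq hx]; ring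
      _ = _ := by
          simp only [Finset.sum_add_distrib, ← Finset.mul_sum, du, dot, rsq]
          ring
  have z1 : ∀ i, ∑ j, proj x i j * x j = 0 := proj_x hx0
  have z2 : ∀ j, ∑ i, proj x i j * x i = 0 := fun j => by
    simp only [proj_symm x _ j]; exact z1 j
  have hd' : ∑ i, ∑ j, proj x i j * (if j = i then (1 : ℝ) else 0) = n - 1 := by
    simp [proj_trace hx0]
  calc meanCurv g x
      = (∑ i, ∑ j, pd i (fun y => u y * (rad y)⁻¹) x * (proj x i j * x j))
        + u x / rad x * (1 - vf u x * rsq x)
          * (∑ i, ∑ j, proj x i j * (if j = i then (1 : ℝ) else 0))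
        - u x / rad x * c1 u x * rsq x * (∑ i, ∑ j, gu u x i * (proj x i j * x j))
        - u x / rad x * c1 u x * rsq x * (∑ j, ∑ i, gu u x j * (proj x i j * x i))
        - u x / rad x * (c3 u x * du u x + c4 u x * rsq x)
          * (∑ i, ∑ j, x i * (proj x i j * x j)) := by
        rw [Finset.sum_comm (f := fun j i => gu u x j * (proj x i j * x i))]
        simp only [meanCurv, h.sphereInv_eq hx, hd, hG, Finset.mul_sum, ← Finset.sum_add_distrib,
          ← Finset.sum_sub_distrib]
        exact Finset.sum_congr rfl fun i _ => Finset.sum_congr rfl fun j _ => by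
          simp only [eq_comm (a := i) (b := j)]; ring
    _ = _ := by
        simp only [← Finset.mul_sum, z1, z2, hd', mul_zero, Finset.sum_const_zero]
        simp only [vf]
        field_simp
        ring

end QS

end Vale.P366
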