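import Vale.Agent.P366.Mass

/-!
# The limits of the energy and momentum fluxes (P366)
-/

open MeasureTheory Set Metric Filter
open scoped Topology

namespace Vale.P366

variable {n : ℕ}

/-- The decay of the data at infinity, in the supremum norm only. -/
def Decays (g K : Tens n) (r₀ : ℝ) : Prop :=
  ∃ q C : ℝ, ((n : ℝ) - 2) / 2 < q ∧ ∀ x : Pt n, r₀ ≤ ‖x‖ → ∀ i j,
    |g x i j - (if i = j then 1 else 0)| ≤ C * ‖x‖ ^ (-q) ∧ |K x i j| ≤ C * ‖x‖ ^ (-1 - q)

lemma abs_proj_le {x : Pt n} (hx : x ≠ 0) (i j : Fin n) : |proj x i j| ≤ 2 := by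
  have hq := rsq_pos hx
  have h1 : |if i = j then (1 : ℝ) else 0| ≤ 1 := by split_ifs <;> simp
  have h2 : |x i * x j / rsq x| ≤ 1 := by
    rw [abs_div, abs_of_pos hq, div_le_one hq, abs_mul]
    have hi : ∀ k, x k * x k ≤ rsq x := fun k =>
      Finset.single_le_sum (fun l _ => mul_self_nonneg (x l)) (Finset.mem_univ k)
    nlinarith [sq_nonneg (|x i| - |x j|), abs_mul_abs_self (x i), abs_mul_abs_self (x j), hi i, hi j]
  exact (abs_sub _ _).trans (by linarith)

variable {g K : Tens n} {u : Pt n → ℝ} {U : Set (Pt n)} {r₀ : ℝ}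

namespace Setup

variable (S : Setup g K u U r₀) {x : Pt n} {q C : ℝ}

include S

lemma norm_ray {r : ℝ} (hr : r₀ ≤ r) (θ : sphere (0 : Pt n) 1) : ‖r • (θ : Pt n)‖ = r := by
  rw [norm_smul, norm_eq_of_mem_sphere θ, mul_one, Real.norm_of_nonneg (S.pos.le.trans hr)]

lemma lapse_le (hx : r₀ ≤ ‖x‖)
    (hg : ∀ i j, |g x i j - (if i = j then 1 else 0)| ≤ C * ‖x‖ ^ (-q)) :
    |u x ^ 2 - 1| ≤ n * C * ‖x‖ ^ (-q) := by
  have hxU := S.sub x hx
  have e : u x ^ 2 - 1 = ∑ i, (g x i i - (if i = i then 1 else 0)) := by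
    simp only [S.qs.form x hxU, if_true, add_sub_cancel_left, mul_assoc, ← Finset.mul_sum]
    show _ = (u x ^ 2 - 1) / rsq x * rsq x
    rw [div_mul_cancel₀ _ (S.qs.rsq_pos hxU).ne']
  rw [e]
  refine (Finset.abs_sum_le_sum_abs _ _).trans ((Finset.sum_le_sum fun i _ => hg i i).trans_eq ?_)
  simp [Finset.sum_const, mul_assoc]

lemma bF_le (hx : r₀ ≤ ‖x‖) (hK : ∀ i j, |K x i j| ≤ C * ‖x‖ ^ (-1 - q)) :
    |bF K x| ≤ 2 * n ^ 2 * C * ‖x‖ ^ (-1 - q) := by
  have hx0 := S.qs.ne0 x (S.sub x hx)
  have hn : (1 : ℝ) ≤ n - 1 := by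
    have : (3 : ℝ) ≤ n := by exact_mod_cast S.dim
    linarith
  rw [bF, abs_div, abs_of_pos (by linarith : (0 : ℝ) < n - 1)]
  refine (div_le_self (abs_nonneg _) hn).trans ?_
  refine (Finset.abs_sum_le_sum_abs _ _).trans ((Finset.sum_le_sum fun i _ =>
    (Finset.abs_sum_le_sum_abs _ _).trans (Finset.sum_le_sum fun j _ =>
      (abs_mul _ _).trans_le (mul_le_mul (abs_proj_le hx0 i j) (hK i j) (abs_nonneg _)
        zero_le_two))).trans_eq ?_)
  simp [Finset.sum_const]
  ring

lemma energyFlux_eq {R : ℝ} (hR : r₀ ≤ R) : 2 * sphereArea n * energyFlux g R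
    = R ^ (n - 2) * ∫ θ : sphere (0 : Pt n) 1, (u (R • (θ : Pt n)) ^ 2 - 1) ∂sphereMeasure n := by
  have hn : (0 : ℝ) < n - 1 := by
    have : (3 : ℝ) ≤ n := by exact_mod_cast S.dim
    linarith
  have hω := sphereArea_pos (n := n) (by linarith [S.dim])
  have hR0 : (0 : ℝ) < R := S.pos.trans_le hR
  have key : ∀ θ : sphere (0 : Pt n) 1, (∑ i, ∑ j,
      (pd j (fun y => g y i j) (R • (θ : Pt n)) - pd i (fun y => g y j j) (R • (θ : Pt n)))
        * (θ : Pt n) i) * R ^ (n - 1)
      = (n - 1) * R ^ (n - 2) * (u (R • (θ : Pt n)) ^ 2 - 1) := by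
    intro θ
    set x := R • (θ : Pt n) with hx
    have hxU := S.ray_mem hR θ
    have hθ : ∀ i, (θ : Pt n) i = x i / R := fun i => by
      rw [hx, PiLp.smul_apply, smul_eq_mul]; field_simp
    have hq : rsq x = R ^ 2 := by rw [rsq_eq, hx, S.norm_ray hR θ]
    calc (∑ i, ∑ j, (pd j (fun y => g y i j) x - pd i (fun y => g y j j) x) * (θ : Pt n) i)
          * R ^ (n - 1)
        = (∑ i, ∑ j, ((x i * x i) * (x j * pd j (wf u) x)
            - (x j * x j) * (x i * pd i (wf u) x)
            + wf u x * ((x i * x j) * (if i = j then 1 else 0)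
              + (x i * x i) * (if j = j then 1 else 0)
              - 2 * ((x i * x j) * (if i = j then 1 else 0)))) / R) * R ^ (n - 1) := by
          congr 1
          refine Finset.sum_congr rfl fun i _ => Finset.sum_congr rfl fun j _ => ?_
          rw [S.qs.pd_metric hxU, S.qs.pd_metric hxU, hθ]
          rcases eq_or_ne i j with rfl | hij
          · simp only [if_true]; ring
          · simp only [if_true, if_neg hij, if_neg hij.symm]; ring
      _ = _ := by
          have t1 : ∀ f : Fin n → ℝ, ∑ i, ∑ j, (x i * x i) * f j = rsq x * ∑ j, f j := fun f => by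
            rw [rsq, Finset.sum_mul]; exact Finset.sum_congr rfl fun i _ => (Finset.mul_sum _ _ _).symm
          have t2 : ∀ f : Fin n → ℝ, ∑ i, ∑ j, (x j * x j) * f i = rsq x * ∑ j, f j := fun f => by
            rw [Finset.sum_comm]; exact t1 f
          have t3 : ∑ i, ∑ j, (x i * x j) * (if i = j then (1 : ℝ) else 0) = rsq x := by simp [rsq]
          have t4 : ∑ i, ∑ j : Fin n, (x i * x i) * (if j = j then (1 : ℝ) else 0) = rsq x * n := by
            rw [t1 fun j => if j = j then (1 : ℝ) else 0]; simp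
          simp only [← Finset.sum_div, Finset.sum_add_distrib, Finset.sum_sub_distrib,
            ← Finset.mul_sum] at *
          rw [t1, t2, t3, t4, wf, hq, show n - 1 = (n - 2) + 1 by have := S.dim; omega, pow_succ]
          field_simp
          ring
  rw [energyFlux, integral_congr_ae (Eventually.of_forall key), integral_const_mul]
  field_simp

/-- The mass and twice the energy flux differ by a null sequence. -/
theorem tendsto_mass_sub (hd : Decays g K r₀) :
    Tendsto (fun R => mass u K R - 2 * sphereArea n * energyFlux g R) atTop (𝓝 0) := by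
  obtain ⟨q, C, hq, hC⟩ := hd
  have hn3 : (3 : ℝ) ≤ n := by exact_mod_cast S.dim
  set A := (2 * ((n : ℝ) * C) ^ 2 + (2 * n ^ 2 * C) ^ 2) * sphereArea n
  have hev : ∀ᶠ R in atTop, ‖mass u K R - 2 * sphereArea n * energyFlux g R‖
      ≤ A * R ^ (-(2 * q - ((n : ℝ) - 2))) := by
    have hsmall : ∀ᶠ R : ℝ in atTop, n * C * R ^ (-q) < 1 / 2 := by
      have h := (tendsto_rpow_neg_atTop (by linarith : (0 : ℝ) < q)).const_mul ((n : ℝ) * C)
      rw [mul_zero] at h
      exact h.eventually (Iio_mem_nhds (by norm_num))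
    filter_upwards [hsmall, eventually_ge_atTop r₀] with R hs hR
    have hR0 : (0 : ℝ) < R := S.pos.trans_le hR
    have hgc : ContinuousOn (fun y => u y ^ 2 - 1) U :=
      (S.qs.smooth.continuousOn.pow 2).sub continuousOn_const
    rw [S.energyFlux_eq hR, mass, ← mul_sub, ← integral_sub
      (integrable_sphere (S.continuous_ray hR S.continuousOn_massDens))
      (integrable_sphere (S.continuous_ray hR hgc)), norm_mul,
      Real.norm_of_nonneg (pow_nonneg hR0.le _)]
    refine (mul_le_mul_of_nonneg_left (norm_integral_le_of_norm_le_const (μ := sphereMeasure n)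
      (C := (2 * ((n : ℝ) * C) ^ 2 + (2 * n ^ 2 * C) ^ 2) * (R ^ (-q)) ^ 2)
      (Eventually.of_forall fun θ => ?_)) (pow_nonneg hR0.le _)).trans_eq ?_
    · set x := R • (θ : Pt n)
      have hnx : ‖x‖ = R := S.norm_ray hR θ
      have hx : r₀ ≤ ‖x‖ := hnx ▸ hR
      have h1 := S.lapse_le hx fun i j => (hC x hx i j).1
      have h2 := S.bF_le hx fun i j => (hC x hx i j).2
      rw [hnx] at h1 h2
      have hu : 1 / 2 ≤ u x ^ 2 := by linarith [(abs_le.1 h1).1]
      have hb : R ^ 2 * bF K x ^ 2 ≤ (2 * n ^ 2 * C) ^ 2 * (R ^ (-q)) ^ 2 := by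
        have e : R * R ^ (-1 - q) = R ^ (-q) := by
          rw [show -q = 1 + (-1 - q) by ring, Real.rpow_add hR0, Real.rpow_one]
        have h3 : |R * bF K x| ≤ 2 * n ^ 2 * C * R ^ (-q) := by
          rw [← e, abs_mul, abs_of_pos hR0]
          exact (mul_le_mul_of_nonneg_left h2 hR0.le).trans_eq (by ring)
        rw [← mul_pow, ← mul_pow, ← sq_abs]
        exact pow_le_pow_left₀ (abs_nonneg _) h3 2
      have hw : (u x ^ 2 - 1) ^ 2 / u x ^ 2 ≤ 2 * ((n : ℝ) * C) ^ 2 * (R ^ (-q)) ^ 2 := by
        rw [div_le_iff₀ (by linarith)]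
        have h4 : (u x ^ 2 - 1) ^ 2 ≤ ((n : ℝ) * C * R ^ (-q)) ^ 2 := by
          rw [← sq_abs]; exact pow_le_pow_left₀ (abs_nonneg _) h1 2
        calc (u x ^ 2 - 1) ^ 2 ≤ ((n : ℝ) * C * R ^ (-q)) ^ 2 := h4
          _ = 2 * ((n : ℝ) * C) ^ 2 * (R ^ (-q)) ^ 2 * (1 / 2) := by ring
          _ ≤ _ := mul_le_mul_of_nonneg_left hu (by positivity)
      have hne : u x ≠ 0 := (S.qs.pos x (S.ray_mem hR θ)).ne'
      have e : massDens u K x - (u x ^ 2 - 1)
          = -((u x ^ 2 - 1) ^ 2 / u x ^ 2) + R ^ 2 * bF K x ^ 2 := by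
        rw [massDens, pf, rsq_eq, hnx]; field_simp; ring
      rw [Real.norm_eq_abs, e, abs_le]
      have p1 : 0 ≤ (u x ^ 2 - 1) ^ 2 / u x ^ 2 := by positivity
      have p2 : 0 ≤ R ^ 2 * bF K x ^ 2 := by positivity
      have p3 : 0 ≤ ((n : ℝ) * C) ^ 2 * (R ^ (-q)) ^ 2 := by positivity
      have p4 : 0 ≤ (2 * (n : ℝ) ^ 2 * C) ^ 2 * (R ^ (-q)) ^ 2 := by positivity
      constructor <;> linarith
    · have e : R ^ (-(2 * q - ((n : ℝ) - 2))) = R ^ (n - 2) * (R ^ (-q)) ^ 2 := by
        rw [← Real.rpow_natCast R, ← Real.rpow_natCast (R ^ (-q)), ← Real.rpow_mul hR0.le,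
          ← Real.rpow_add hR0]
        congr 1
        push_cast [Nat.cast_sub (show 2 ≤ n by linarith [S.dim])]
        ring
      simp only [e, A, sphereArea]
      ring
  refine squeeze_zero_norm' hev ?_
  simpa using (tendsto_rpow_neg_atTop (by linarith : (0 : ℝ) < 2 * q - ((n : ℝ) - 2))).const_mul A

/-- The energy is at least half the power of the boundary radius. -/
theorem energy_ge (hd : Decays g K r₀) {E : ℝ} (hE : Tendsto (energyFlux g) atTop (𝓝 E)) :
    r₀ ^ (n - 2) / 2 ≤ E := by
  have hω := sphereArea_pos (n := n) (by linarith [S.dim])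
  have h1 : Tendsto (mass u K) atTop (𝓝 (2 * sphereArea n * E)) := by
    simpa using (S.tendsto_mass_sub hd).add (hE.const_mul (2 * sphereArea n))
  have h2 := ge_of_tendsto h1 ((eventually_ge_atTop r₀).mono fun r hr => S.area_le_mass hr)
  rw [div_le_iff₀ two_pos]
  refine le_of_mul_le_mul_left ?_ hω
  linarith

/-- The momentum vanishes for data without mixed part and with radial trace on the spheres. -/
theorem momentum_zero (hd : Decays g K r₀) (hmix : ∀ x, r₀ < ‖x‖ → ∀ a, mixedPart g K x a = 0)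
    (hrad : ∀ x y, r₀ < ‖x‖ → ‖x‖ = ‖y‖ → sphereTrace g K x = sphereTrace g K y) (i : Fin n) :
    Tendsto (momentumFlux g K i) atTop (𝓝 0) := by
  obtain ⟨q, C, hq, hC⟩ := hd
  have hn3 : (3 : ℝ) ≤ n := by exact_mod_cast S.dim
  have hn : (0 : ℝ) < n - 1 := by linarith
  have hω := sphereArea_pos (n := n) (by linarith [S.dim])
  set c := 2 * (2 * ((n : ℝ) - 1) * sphereArea n)⁻¹
  set A := |c| * ((n - 1) * (2 * n ^ 2 * C) * (n * C) * sphereArea n)
  have hev : ∀ᶠ R in atTop, ‖momentumFlux g K i R‖ ≤ A * R ^ (-(2 * q - ((n : ℝ) - 2))) := by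
    filter_upwards [eventually_gt_atTop r₀] with R hR
    have hR0 : (0 : ℝ) < R := S.pos.trans hR
    set z := R • (EuclideanSpace.single i (1 : ℝ))
    have hz : ‖z‖ = R := by
      simp [z, norm_smul, hR0.le]
    set β := bF K z
    have hgc : ContinuousOn (fun y => u y ^ 2 - 1) U :=
      (S.qs.smooth.continuousOn.pow 2).sub continuousOn_const
    have key : ∀ θ : sphere (0 : Pt n) 1, (∑ j, momTensor g K (R • (θ : Pt n)) i j * (θ : Pt n) j)
        * R ^ (n - 1) = -((n - 1) * β * R ^ (n - 1)) * (θ : Pt n) i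
          + -((n - 1) * β * R ^ (n - 1)) * ((u (R • (θ : Pt n)) ^ 2 - 1) * (θ : Pt n) i) := by
      intro θ
      set x := R • (θ : Pt n) with hx
      have hnx : ‖x‖ = R := S.norm_ray hR.le θ
      have hxU := S.ray_mem hR.le θ
      have hx' : r₀ < ‖x‖ := hnx ▸ hR
      have hk : ∀ a, kF u K x a = 0 := fun a => by
        rw [← S.qs.mixedPart_eq hxU]; exact hmix x hx' a
      have hb : bF K x = β := by
        have h := hrad x z hx' (hnx.trans hz.symm)
        rw [S.qs.sphereTrace_eq hxU K (by linarith [S.dim]),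
          S.qs.sphereTrace_eq (S.sub z (hz ▸ hR.le)) K (by linarith [S.dim])] at h
        exact mul_left_cancel₀ hn.ne' h
      have h0 := (S.qs.pos x hxU).ne'
      have hxj : ∀ j, x j = R * (θ : Pt n) j := fun j => by
        rw [hx, PiLp.smul_apply, smul_eq_mul]
      have hθ : ∀ j, (θ : Pt n) j = u x * nu u x j := fun j => by
        simp only [nu, rad_eq, hnx, hxj]
        field_simp
      have hgn : ∑ j, g x i j * nu u x j = u x * (θ : Pt n) i := by
        calc ∑ j, g x i j * nu u x j
            = ∑ j, ((if i = j then (1 : ℝ) else 0) * nu u x j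
              + wf u x * x i / (u x * rad x) * (x j * x j)) :=
              Finset.sum_congr rfl fun j _ => by rw [S.qs.form_w hxU]; simp only [nu]; ring
          _ = nu u x i + wf u x * x i / (u x * rad x) * rsq x := by
              simp [Finset.sum_add_distrib, ← Finset.mul_sum, rsq]
          _ = _ := by
              rw [hθ i, nu, wf, rad_eq, hnx, rsq_eq, hnx]
              field_simp
              ring
      have hKn := S.qs.Knu_eq hxU (K := K) i
      calc (∑ j, momTensor g K x i j * (θ : Pt n) j) * R ^ (n - 1)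
          = u x * ((∑ j, K x i j * nu u x j) - traceG g K x * (∑ j, g x i j * nu u x j))
            * R ^ (n - 1) := by
            congr 1
            rw [mul_sub, Finset.mul_sum, Finset.mul_sum, Finset.mul_sum, ← Finset.sum_sub_distrib]
            refine Finset.sum_congr rfl fun j _ => ?_
            rw [hθ j]
            simp only [momTensor, Matrix.sub_apply, Matrix.smul_apply, smul_eq_mul]
            ring
        _ = _ := by
            rw [hKn, hk, hgn, S.qs.traceG_eq hxU (by linarith [S.dim]), hb, rad_eq, hnx,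
              show u x * x i / R = u x * (θ : Pt n) i by rw [hxj]; field_simp]
            ring
    have hint : Continuous fun θ : sphere (0 : Pt n) 1 => (θ : Pt n) i :=
      (contDiff_coord (k := 0) i).continuous.comp continuous_subtype_val
    have hint2 : Continuous fun θ : sphere (0 : Pt n) 1 =>
        (u (R • (θ : Pt n)) ^ 2 - 1) * (θ : Pt n) i := (S.continuous_ray hR.le hgc).mul hint
    rw [momentumFlux, integral_congr_ae (Eventually.of_forall key),
      integral_add ((integrable_sphere hint).const_mul _) ((integrable_sphere hint2).const_mul _),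
      integral_const_mul, integral_const_mul, integral_sphere_coord, mul_zero, zero_add, norm_mul]
    refine (mul_le_mul_of_nonneg_left ?_ (norm_nonneg _)).trans_eq
      (show |c| * ((n - 1) * (2 * n ^ 2 * C * R ^ (-1 - q)) * R ^ (n - 1)
        * (n * C * R ^ (-q) * sphereArea n)) = A * R ^ (-(2 * q - ((n : ℝ) - 2))) from ?_)
    · rw [norm_mul]
      refine mul_le_mul ?_ ?_ (norm_nonneg _) ?_
      · rw [Real.norm_eq_abs, abs_neg, abs_mul, abs_mul, abs_of_pos hn,
          abs_of_pos (pow_pos hR0 _)]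
        have h := S.bF_le (x := z) (hz ▸ hR.le) fun a b => (hC z (hz ▸ hR.le) a b).2
        rw [hz] at h
        exact mul_le_mul_of_nonneg_right (mul_le_mul_of_nonneg_left h hn.le) (pow_pos hR0 _).le
      · refine norm_integral_le_of_norm_le_const (μ := sphereMeasure n)
          (Eventually.of_forall fun θ => ?_)
        have hnx : ‖R • (θ : Pt n)‖ = R := S.norm_ray hR.le θ
        have hx' : r₀ ≤ ‖R • (θ : Pt n)‖ := by rw [hnx]; exact hR.le
        have h := S.lapse_le (x := R • (θ : Pt n)) hx' fun a b => (hC _ hx' a b).1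
        rw [hnx] at h
        rw [norm_mul, Real.norm_eq_abs, Real.norm_eq_abs]
        refine (mul_le_mul h ?_ (abs_nonneg _) ((abs_nonneg _).trans h)).trans_eq (mul_one _)
        calc |(θ : Pt n) i| ≤ ‖(θ : Pt n)‖ := by
              simpa [Real.norm_eq_abs] using PiLp.norm_apply_le (θ : Pt n) i
          _ = 1 := norm_eq_of_mem_sphere θ
      · refine mul_nonneg (mul_nonneg hn.le ?_) (pow_pos hR0 _).le
        have h := S.bF_le (x := z) (hz ▸ hR.le) fun a b => (hC z (hz ▸ hR.le) a b).2
        rw [hz] at h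
        exact (abs_nonneg _).trans h
    · have e : R ^ (-(2 * q - ((n : ℝ) - 2))) = R ^ (-1 - q) * R ^ (n - 1) * R ^ (-q) := by
        rw [← Real.rpow_natCast R, ← Real.rpow_add hR0, ← Real.rpow_add hR0]
        congr 1
        push_cast [Nat.cast_sub (show 1 ≤ n by linarith [S.dim])]
        ring
      simp only [A, e]
      ring
  refine squeeze_zero_norm' hev ?_
  simpa using (tendsto_rpow_neg_atTop (by linarith : (0 : ℝ) < 2 * q - ((n : ℝ) - 2))).const_mul A

end Setup

end Vale.P366
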