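import Vale.Agent.P366.Pointwise
import Vale.Agent.P366.Sphere

/-!
# The monotone mass on the coordinate spheres (P366)
-/

open MeasureTheory Set Metric
open scoped Topology

namespace Vale.P366

variable {n : ℕ}

/-- The mass of the coordinate sphere of radius `r`, times the area of the unit sphere. -/
noncomputable def mass (u : Pt n → ℝ) (K : Tens n) (r : ℝ) : ℝ :=
  r ^ (n - 2) * ∫ θ : sphere (0 : Pt n) 1, massDens u K (r • (θ : Pt n)) ∂sphereMeasure n

variable {g : Tens n} {u : Pt n → ℝ} {U : Set (Pt n)} {K : Tens n} {x : Pt n}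

lemma contDiffAt_rad (hx : x ≠ 0) {k : WithTop ℕ∞} : ContDiffAt ℝ k rad x :=
  contDiff_rsq.contDiffAt.sqrt (rsq_pos hx).ne'

lemma contDiffAt_proj (hx : x ≠ 0) (i j : Fin n) {k : WithTop ℕ∞} :
    ContDiffAt ℝ k (fun y => proj y i j) x :=
  contDiffAt_const.sub (((contDiff_coord i).contDiffAt.mul (contDiff_coord j).contDiffAt).div
    contDiff_rsq.contDiffAt (rsq_pos hx).ne')

namespace QS

variable (h : QS g u U) (hK : SymData K U) (hx : x ∈ U)

include h hx

lemma contDiffAt_nu (i : Fin n) : ContDiffAt ℝ 1 (fun y => nu u y i) x :=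
  (contDiff_coord i).contDiffAt.div ((h.contDiffAt_u hx (k := 1) (by norm_num)).mul
    (contDiffAt_rad (h.ne0 x hx))) (mul_ne_zero (h.pos x hx).ne' (Vale.P366.rad_pos (h.ne0 x hx)).ne')

include hK

lemma contDiffAt_bF : ContDiffAt ℝ 1 (bF K) x := by
  have hc : ∀ i j, ContDiffAt ℝ 1 (fun y => K y i j) x := fun i j =>
    ((hK.smooth i j).contDiffAt (h.mem_nhds hx)).of_le one_le_two
  exact (ContDiffAt.sum fun i _ => ContDiffAt.sum fun j _ =>
    (contDiffAt_proj (h.ne0 x hx) i j).mul (hc i j)).div_const _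

lemma contDiffAt_kF (a : Fin n) : ContDiffAt ℝ 1 (fun y => kF u K y a) x := by
  have hc : ∀ i j, ContDiffAt ℝ 1 (fun y => K y i j) x := fun i j =>
    ((hK.smooth i j).contDiffAt (h.mem_nhds hx)).of_le one_le_two
  exact ContDiffAt.sum fun i _ => (contDiffAt_proj (h.ne0 x hx) a i).mul
    (ContDiffAt.sum fun j _ => (hc i j).mul (h.contDiffAt_nu hx j))

lemma contDiffAt_massDens : ContDiffAt ℝ 1 (massDens u K) x :=
  (contDiffAt_const.sub (h.contDiffAt_pf hx (k := 1) (by norm_num))).add
    (contDiff_rsq.contDiffAt.mul ((h.contDiffAt_bF hK hx).pow 2))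

lemma contDiffAt_field (a : Fin n) : ContDiffAt ℝ 1 (fun y => field u K y a) x := by
  have hu := h.contDiffAt_u hx (k := 1) (by norm_num)
  have hp : ∀ i, ContDiffAt ℝ 1 (pd i u) x := fun i =>
    contDiffAt_pd (k := 1) (h.contDiffAt_u hx (k := 2) (by norm_num))
  have hdu : ContDiffAt ℝ 1 (fun y : Pt n => ∑ i, y i * pd i u y) x :=
    ContDiffAt.sum fun i _ => (contDiff_coord i).contDiffAt.mul (hp i)
  exact ((((hp a)).sub (((contDiff_coord a).contDiffAt.mul hdu).div contDiff_rsq.contDiffAt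
    (h.rsq_pos hx).ne')).div hu (h.pos x hx).ne').add
    ((((contDiffAt_rad (h.ne0 x hx)).mul (h.contDiffAt_bF hK hx)).mul hu).mul
      (h.contDiffAt_kF hK hx a))

end QS

/-- The hypotheses of the monotonicity. -/
structure Setup (g K : Tens n) (u : Pt n → ℝ) (U : Set (Pt n)) (r₀ : ℝ) : Prop where
  qs : QS g u U
  sym : SymData K U
  dim : 3 ≤ n
  pos : 0 < r₀
  sub : ∀ x : Pt n, r₀ ≤ ‖x‖ → x ∈ U
  dec : ∀ x : Pt n, r₀ < ‖x‖ → DEC g K x
  untrapped : ∀ x : Pt n, r₀ < ‖x‖ → |sphereTrace g K x| ≤ meanCurv g x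
  orth : ∀ x : Pt n, r₀ < ‖x‖ → ∑ a, mixedPart g K x a * pd a (sphereTrace g K) x = 0
  trapped : ∀ x : Pt n, ‖x‖ = r₀ → meanCurv g x + sphereTrace g K x ≤ 0

namespace Setup

variable {r₀ : ℝ} (S : Setup g K u U r₀)

include S

lemma ray_mem {r : ℝ} (hr : r₀ ≤ r) (θ : sphere (0 : Pt n) 1) : r • (θ : Pt n) ∈ U :=
  S.sub _ (by
    rw [norm_smul, norm_eq_of_mem_sphere θ, mul_one, Real.norm_of_nonneg (S.pos.le.trans hr)]
    exact hr)

lemma one_sub_le (hx : r₀ < ‖x‖) : |u x * rad x * bF K x| ≤ 1 := by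
  have hxU := S.sub x hx.le
  have hn : (0 : ℝ) < n - 1 := by
    have : (3 : ℝ) ≤ n := by exact_mod_cast S.dim
    linarith
  have hur : 0 < u x * rad x := mul_pos (S.qs.pos x hxU) (rad_pos (S.qs.ne0 x hxU))
  have h := S.untrapped x hx
  rw [S.qs.sphereTrace_eq hxU K (by linarith [S.dim]), S.qs.meanCurv_eq hxU, abs_mul,
    abs_of_pos hn, le_div_iff₀ hur] at h
  rw [abs_mul, abs_of_pos hur]
  refine le_of_mul_le_mul_left ?_ hn
  linarith

lemma orth' (hx : r₀ < ‖x‖) : dot (kF u K x) (fun a => pd a (bF K) x) = 0 := by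
  have hxU := S.sub x hx.le
  have hn : (0 : ℝ) < n - 1 := by
    have : (3 : ℝ) ≤ n := by exact_mod_cast S.dim
    linarith
  have h := S.orth x hx
  have e : sphereTrace g K =ᶠ[𝓝 x] fun y => ((n : ℝ) - 1) * bF K y :=
    Filter.eventually_of_mem (S.qs.mem_nhds hxU) fun y hy =>
      S.qs.sphereTrace_eq hy K (by linarith [S.dim])
  simp only [pd_congr e, pd_const_mul _ (S.qs.differentiableAt_bF S.sym hxU),
    S.qs.mixedPart_eq hxU, mul_left_comm _ ((n : ℝ) - 1), ← Finset.mul_sum] at h
  exact (mul_eq_zero.1 h).resolve_left hn.ne'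

lemma boundary_le (hx : ‖x‖ = r₀) : 1 ≤ massDens u K x := by
  have hxU := S.sub x hx.ge
  have hn : (0 : ℝ) < n - 1 := by
    have : (3 : ℝ) ≤ n := by exact_mod_cast S.dim
    linarith
  have hu := S.qs.pos x hxU
  have hr := rad_pos (S.qs.ne0 x hxU)
  have h := S.trapped x hx
  rw [S.qs.sphereTrace_eq hxU K (by linarith [S.dim]), S.qs.meanCurv_eq hxU, div_add' _ _ _
    (mul_pos hu hr).ne', div_le_iff₀ (mul_pos hu hr), zero_mul] at h
  have h1 : 1 ≤ -(bF K x * (u x * rad x)) := by
    refine le_of_mul_le_mul_left ?_ hn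
    linarith
  have h2 : 1 ≤ (bF K x * (u x * rad x)) ^ 2 := by nlinarith
  rw [massDens, pf, ← rad_sq (x := x), sub_add, le_sub_self_iff, sub_nonpos,
    div_le_iff₀ (pow_pos hu 2)]
  linarith

lemma continuousOn_massDens : ContinuousOn (massDens u K) U := fun _ hx =>
  (S.qs.contDiffAt_massDens S.sym hx).continuousAt.continuousWithinAt

lemma continuous_ray {r : ℝ} (hr : r₀ ≤ r) {f : Pt n → ℝ} (hf : ContinuousOn f U) :
    Continuous fun θ : sphere (0 : Pt n) 1 => f (r • (θ : Pt n)) :=
  hf.comp_continuous (f := fun θ : sphere (0 : Pt n) 1 => r • (θ : Pt n))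
    (continuous_subtype_val.const_smul r) (S.ray_mem hr)

lemma continuousOn_mass : ContinuousOn (mass u K) (Ici r₀) := by
  refine (continuousOn_pow _).mul fun r hr => ?_
  obtain ⟨B, hB⟩ := ((isCompact_Icc (a := r₀) (b := r + 1)).prod isCompact_univ
    (t := (univ : Set (sphere (0 : Pt n) 1)))).exists_bound_of_continuousOn
      (f := fun p : ℝ × sphere (0 : Pt n) 1 => massDens u K (p.1 • (p.2 : Pt n)))
      (S.continuousOn_massDens.comp (Continuous.continuousOn (by fun_prop))
        fun p hp => S.ray_mem hp.1.1 p.2)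
  refine (continuousWithinAt_of_dominated (bound := fun _ => B)
    (F := fun s (θ : sphere (0 : Pt n) 1) => massDens u K (s • (θ : Pt n))) ?_ ?_
    (integrable_const B) ?_)
  · exact eventually_nhdsWithin_of_forall fun s hs =>
      (S.continuous_ray hs S.continuousOn_massDens).aestronglyMeasurable
  · filter_upwards [inter_mem_nhdsWithin (Ici r₀) (Iio_mem_nhds (lt_add_one r))] with s hs
    exact Filter.Eventually.of_forall fun θ => hB (s, θ) ⟨⟨hs.1, hs.2.le⟩, mem_univ _⟩
  · exact Filter.Eventually.of_forall fun θ =>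
      (S.continuousOn_massDens.comp (f := fun s : ℝ => s • (θ : Pt n))
        (Continuous.continuousOn (by fun_prop)) fun s hs => S.ray_mem hs θ) r hr

lemma hasDerivAt_mass {r : ℝ} (hr : r₀ < r) : HasDerivAt (mass u K)
    (r ^ (n - 3) * ∫ θ : sphere (0 : Pt n) 1, ((n - 2) * massDens u K (r • (θ : Pt n))
      + ∑ a, (r • (θ : Pt n)) a * pd a (massDens u K) (r • (θ : Pt n))) ∂sphereMeasure n) r := by
  let D : ℝ × sphere (0 : Pt n) 1 → ℝ := fun p =>
    ∑ a, (p.2 : Pt n) a * pd a (massDens u K) (p.1 • (p.2 : Pt n))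
  have hf : ContDiffOn ℝ 1 (massDens u K) U := fun _ hx =>
    (S.qs.contDiffAt_massDens S.sym hx).contDiffWithinAt
  have hD : ContinuousOn D (Icc r₀ (r + 1) ×ˢ univ) := by
    refine continuousOn_finsetSum _ fun a _ => ?_
    exact (((EuclideanSpace.proj a : Pt n →L[ℝ] ℝ).continuous.comp
      (continuous_subtype_val.comp continuous_snd)).continuousOn).mul
      ((continuousOn_pd S.qs.isOpen hf a).comp (Continuous.continuousOn (by fun_prop))
        fun p hp => S.ray_mem hp.1.1 p.2)
  obtain ⟨C, hC⟩ := (isCompact_Icc.prod isCompact_univ).exists_bound_of_continuousOn hD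
  have hmem : Icc r₀ (r + 1) ∈ 𝓝 r := Icc_mem_nhds hr (lt_add_one r)
  have h1 := hasDerivAt_integral_of_dominated_loc_of_deriv_le (μ := sphereMeasure n)
    (F := fun s (θ : sphere (0 : Pt n) 1) => massDens u K (s • (θ : Pt n)))
    (F' := fun s θ => D (s, θ)) (x₀ := r) (bound := fun _ => C) hmem
    (Filter.eventually_of_mem hmem fun s hs =>
      (S.continuous_ray hs.1 S.continuousOn_massDens).aestronglyMeasurable)
    (integrable_sphere (S.continuous_ray hr.le S.continuousOn_massDens))
    ((hD.comp_continuous (f := fun θ : sphere (0 : Pt n) 1 => (r, θ)) (by fun_prop)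
      fun θ => ⟨⟨hr.le, (lt_add_one r).le⟩, mem_univ _⟩).aestronglyMeasurable)
    (Filter.Eventually.of_forall fun θ s hs => hC (s, θ) ⟨hs, mem_univ _⟩) (integrable_const C)
    (Filter.Eventually.of_forall fun θ s hs => hasDerivAt_ray
      ((hf.differentiableOn one_ne_zero).differentiableAt (S.qs.mem_nhds (S.ray_mem hs.1 θ))))
  refine ((hasDerivAt_pow (n - 2) r).fun_mul h1.2).congr_deriv ?_
  have e : ∀ θ : sphere (0 : Pt n) 1, ∑ a, (r • (θ : Pt n)) a
      * pd a (massDens u K) (r • (θ : Pt n)) = r * D (r, θ) := fun θ => by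
    simp [D, Finset.mul_sum, mul_assoc]
  simp only [e]
  have hDc : Continuous fun θ : sphere (0 : Pt n) 1 => D (r, θ) :=
    hD.comp_continuous (f := fun θ : sphere (0 : Pt n) 1 => (r, θ))
      (by fun_prop) fun θ => ⟨⟨hr.le, (lt_add_one r).le⟩, mem_univ _⟩
  rw [integral_add ((integrable_sphere (S.continuous_ray hr.le S.continuousOn_massDens)).const_mul _)
    ((integrable_sphere hDc).const_mul _),
    integral_const_mul, integral_const_mul]
  obtain ⟨m, rfl⟩ : ∃ m, n = m + 3 := ⟨n - 3, by have := S.dim; omega⟩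
  simp only [show m + 3 - 2 = m + 1 by omega, Nat.add_sub_cancel, pow_succ]
  push_cast
  ring

theorem mass_mono : MonotoneOn (mass u K) (Ici r₀) := by
  refine monotoneOn_of_deriv_nonneg (convex_Ici r₀) S.continuousOn_mass ?_ ?_
  · rw [interior_Ici]
    exact fun r hr => (S.hasDerivAt_mass hr).differentiableAt.differentiableWithinAt
  · rw [interior_Ici]
    intro r hr
    have hr0 : (0 : ℝ) < r := S.pos.trans hr
    rw [(S.hasDerivAt_mass hr).deriv]
    refine mul_nonneg (pow_nonneg hr0.le _) ?_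
    set G := fun θ : sphere (0 : Pt n) 1 => ((n : ℝ) - 2) * massDens u K (r • (θ : Pt n))
      + ∑ a, (r • (θ : Pt n)) a * pd a (massDens u K) (r • (θ : Pt n))
    have hc : (0 : ℝ) < (n - 1) / (2 * r ^ 2) := by
      have : (3 : ℝ) ≤ n := by exact_mod_cast S.dim
      have : (0 : ℝ) < n - 1 := by linarith
      positivity
    refine nonneg_of_mul_nonneg_right ?_ hc
    have hS : ∀ y : Pt n, ‖y‖ = r → y ∈ U := fun y hy => S.sub y (hy ▸ hr.le)
    have hX : ∀ a, ContDiffOn ℝ 1 (fun y => field u K y a) U := fun a _ hy =>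
      (S.qs.contDiffAt_field S.sym hy a).contDiffWithinAt
    have hzero := integral_div_tangent S.qs.isOpen hr0 hS hX fun y hy => by
      have z1 := S.qs.sum_x_tau hy
      have z2 := S.qs.kF_tangent hy (K := K)
      have e : ∀ a, y a * field u K y a = 1 / u y * (y a * tau u y a)
          + rad y * bF K y * u y * (y a * kF u K y a) := fun a => by simp only [field]; ring
      simp only [e, Finset.sum_add_distrib, ← Finset.mul_sum, z1, z2, mul_zero, add_zero]
    have hf : ContDiffOn ℝ 1 (massDens u K) U := fun _ hx =>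
      (S.qs.contDiffAt_massDens S.sym hx).contDiffWithinAt
    rw [← integral_const_mul, ← hzero]
    refine integral_mono (integrable_sphere (S.continuous_ray hr.le
      (continuousOn_finsetSum _ fun a _ => continuousOn_pd S.qs.isOpen (hX a) a)))
      (integrable_sphere ((S.continuous_ray hr.le (f := fun y => (n - 1) / (2 * r ^ 2) *
        ((n - 2) * massDens u K y + ∑ a, y a * pd a (massDens u K) y)) ?_))) fun θ => ?_
    · exact continuousOn_const.mul ((continuousOn_const.mul S.continuousOn_massDens).add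
        (continuousOn_finsetSum _ fun a _ => (contDiff_coord (k := 0) a).continuous.continuousOn.mul
          (continuousOn_pd S.qs.isOpen hf a)))
    · have hn : ‖r • (θ : Pt n)‖ = r := by
        rw [norm_smul, norm_eq_of_mem_sphere θ, mul_one, Real.norm_of_nonneg hr0.le]
      have hx : r₀ < ‖r • (θ : Pt n)‖ := by rw [hn]; exact hr
      have key := S.qs.key_ineq S.sym (S.sub _ hx.le) (by linarith [S.dim]) (S.orth' hx) (S.dec _ hx)
        (S.one_sub_le hx)
      rw [rsq_eq, hn] at key
      exact key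

theorem area_le_mass {r : ℝ} (hr : r₀ ≤ r) :
    sphereArea n * r₀ ^ (n - 2) ≤ mass u K r := by
  refine le_trans ?_ (S.mass_mono self_mem_Ici hr hr)
  rw [mul_comm, mass]
  refine mul_le_mul_of_nonneg_left ?_ (pow_nonneg S.pos.le _)
  calc sphereArea n = ∫ _ : sphere (0 : Pt n) 1, (1 : ℝ) ∂sphereMeasure n := by
        simp [sphereArea]
    _ ≤ _ := integral_mono (integrable_const 1)
        (integrable_sphere (S.continuous_ray le_rfl S.continuousOn_massDens)) fun θ =>
          S.boundary_le (by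
            rw [norm_smul, norm_eq_of_mem_sphere θ, mul_one, Real.norm_of_nonneg S.pos.le])

end Setup

end Vale.P366
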