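import Vale.Agent.P366.Calc

/-!
# The quasi-spherical metric: inverse and Christoffel symbols (P366)
-/

open scoped Topology

namespace Vale.P366

variable {n : ℕ}

/-- The Euclidean product of two component vectors. -/
def dot (a b : Fin n → ℝ) : ℝ := ∑ i, a i * b i

lemma dot_comm (a b : Fin n → ℝ) : dot a b = dot b a := by
  simp [dot, mul_comm]

lemma dot_self_nonneg (a : Fin n → ℝ) : 0 ≤ dot a a :=
  Finset.sum_nonneg fun i _ => mul_self_nonneg (a i)

lemma rsq_eq_dot (x : Pt n) : rsq x = dot x x := rfl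

/-- `g` is the quasi-spherical metric with lapse `u` on the open set `U`. -/
structure QS (g : Tens n) (u : Pt n → ℝ) (U : Set (Pt n)) : Prop where
  isOpen : IsOpen U
  ne0 : ∀ x ∈ U, x ≠ 0
  smooth : ContDiffOn ℝ 3 u U
  pos : ∀ x ∈ U, 0 < u x
  form : ∀ x ∈ U, ∀ i j, g x i j = (if i = j then 1 else 0) + (u x ^ 2 - 1) / rsq x * x i * x j

/-- The coefficient `w` with `g = δ + w x x`. -/
noncomputable def wf (u : Pt n → ℝ) (x : Pt n) : ℝ := (u x ^ 2 - 1) / rsq x

/-- The coefficient `v` with `g⁻¹ = δ - v x x`. -/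
noncomputable def vf (u : Pt n → ℝ) (x : Pt n) : ℝ := (1 - 1 / u x ^ 2) / rsq x

/-- `1 / u²`. -/
noncomputable def pf (u : Pt n → ℝ) (x : Pt n) : ℝ := 1 / u x ^ 2

namespace QS

variable {g : Tens n} {u : Pt n → ℝ} {U : Set (Pt n)} (h : QS g u U) {x : Pt n} (hx : x ∈ U)

include h hx

lemma mem_nhds : U ∈ 𝓝 x := h.isOpen.mem_nhds hx

lemma rsq_pos : 0 < rsq x := Vale.P366.rsq_pos (h.ne0 x hx)

lemma one_sub_v : 1 - vf u x * rsq x = pf u x := by
  have := h.rsq_pos hx
  simp only [vf, pf]; field_simp; ring

lemma v_eq : vf u x = wf u x * pf u x := by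
  have := h.rsq_pos hx
  have := h.pos x hx
  simp only [vf, pf, wf]; field_simp

lemma form_w (i j : Fin n) : g x i j = (if i = j then 1 else 0) + wf u x * x i * x j :=
  h.form x hx i j

lemma ginv_eq (i j : Fin n) :
    ginv g x i j = (if i = j then 1 else 0) - vf u x * x i * x j := by
  have key : g x * (Matrix.of fun a c => (if a = c then (1 : ℝ) else 0) - vf u x * x a * x c)
      = 1 := by
    ext a c
    have e : wf u x - vf u x - wf u x * vf u x * rsq x = 0 := by
      have := h.rsq_pos hx
      have := h.pos x hx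
      simp only [wf, vf]; field_simp; ring
    have e2 : ∑ l, (if a = l then (1 : ℝ) else 0) * (if l = c then 1 else 0)
        = if a = c then 1 else 0 := by simp
    rw [Matrix.mul_apply, Matrix.one_apply]
    calc ∑ l, g x a l * _ = ∑ l, ((if a = l then (1 : ℝ) else 0) * (if l = c then 1 else 0)
          + (-(vf u x * x c) * ((if a = l then 1 else 0) * x l)
          + wf u x * x a * ((if l = c then 1 else 0) * x l)
          + -(wf u x * vf u x * x a * x c) * (x l * x l))) :=
          Finset.sum_congr rfl fun l _ => by rw [h.form_w hx, Matrix.of_apply]; ring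
      _ = (if a = c then 1 else 0) + (-(vf u x * x c) * x a + wf u x * x a * x c
          + -(wf u x * vf u x * x a * x c) * rsq x) := by
          simp only [Finset.sum_add_distrib, ← Finset.mul_sum, e2]
          simp [rsq]
      _ = _ := by linear_combination x a * x c * e
  rw [ginv, Matrix.inv_eq_right_inv key, Matrix.of_apply]

lemma ginv_vec (a : Fin n → ℝ) (i : Fin n) :
    ∑ j, ginv g x i j * a j = a i - vf u x * x i * dot x a := by
  simp only [h.ginv_eq hx, sub_mul, Finset.sum_sub_distrib, dot, Finset.mul_sum]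
  simp [mul_assoc]

/-- Contraction of a dyad with the inverse metric. -/
lemma ginv_dyad (a b : Fin n → ℝ) :
    ∑ i, ∑ j, ginv g x i j * (a i * b j) = dot a b - vf u x * dot x a * dot x b := by
  calc ∑ i, ∑ j, ginv g x i j * (a i * b j)
      = ∑ i, a i * (b i - vf u x * x i * dot x b) := by
        refine Finset.sum_congr rfl fun i _ => ?_
        rw [← h.ginv_vec hx b i, Finset.mul_sum]
        exact Finset.sum_congr rfl fun j _ => by ring
    _ = _ := by
        simp only [mul_sub, Finset.sum_sub_distrib, dot, Finset.mul_sum, Finset.sum_mul]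
        congr 1
        rw [Finset.sum_comm]
        exact Finset.sum_congr rfl fun i _ => Finset.sum_congr rfl fun j _ => by ring

/-- Contraction of the identity with the inverse metric. -/
lemma ginv_delta : ∑ i, ∑ j, ginv g x i j * (if i = j then (1 : ℝ) else 0)
    = n - vf u x * rsq x := by
  simp [h.ginv_eq hx, Finset.sum_sub_distrib, rsq, Finset.mul_sum, mul_assoc]

lemma contDiffAt_u {k : ℕ} (hk : k ≤ 3) : ContDiffAt ℝ k u x :=
  (h.smooth.contDiffAt (h.mem_nhds hx)).of_le (by exact_mod_cast hk)

lemma contDiffAt_wf {k : ℕ} (hk : k ≤ 3) : ContDiffAt ℝ k (wf u) x :=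
  (((h.contDiffAt_u hx hk).pow 2).sub contDiffAt_const).div contDiff_rsq.contDiffAt
    (h.rsq_pos hx).ne'

lemma contDiffAt_pf {k : ℕ} (hk : k ≤ 3) : ContDiffAt ℝ k (pf u) x :=
  contDiffAt_const.div ((h.contDiffAt_u hx hk).pow 2) (pow_ne_zero _ (h.pos x hx).ne')

lemma differentiableAt_u : DifferentiableAt ℝ u x :=
  (h.contDiffAt_u hx (k := 1) (by norm_num)).differentiableAt one_ne_zero

lemma differentiableAt_wf : DifferentiableAt ℝ (wf u) x :=
  (h.contDiffAt_wf hx (k := 1) (by norm_num)).differentiableAt one_ne_zero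

lemma differentiableAt_pf : DifferentiableAt ℝ (pf u) x :=
  (h.contDiffAt_pf hx (k := 1) (by norm_num)).differentiableAt one_ne_zero

lemma differentiableAt_pd_wf (i : Fin n) : DifferentiableAt ℝ (pd i (wf u)) x :=
  (contDiffAt_pd (k := 1) (h.contDiffAt_wf hx (k := 2) (by norm_num))).differentiableAt
    one_ne_zero

lemma differentiableAt_pd_u (i : Fin n) : DifferentiableAt ℝ (pd i u) x :=
  (contDiffAt_pd (k := 1) (h.contDiffAt_u hx (k := 2) (by norm_num))).differentiableAt
    one_ne_zero

lemma pd_metric (l i j : Fin n) : pd l (fun y => g y i j) x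
    = pd l (wf u) x * x i * x j
      + wf u x * ((if i = l then 1 else 0) * x j + x i * (if j = l then 1 else 0)) := by
  have e : (fun y => g y i j) =ᶠ[𝓝 x]
      fun y => (if i = j then 1 else 0) + wf u y * y i * y j :=
    Filter.eventually_of_mem (h.mem_nhds hx) fun y hy => h.form_w hy i j
  have h1 := h.differentiableAt_wf hx
  rw [pd_congr e, pd_add (differentiableAt_const _)
    ((h1.fun_mul (differentiableAt_coord i)).fun_mul (differentiableAt_coord j)), pd_const,
    pd_mul (h1.fun_mul (differentiableAt_coord i)) (differentiableAt_coord j),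
    pd_mul h1 (differentiableAt_coord i), pd_coord, pd_coord]
  ring

end QS

/-- The gradient of `w`. -/
noncomputable def gw (u : Pt n → ℝ) (x : Pt n) (i : Fin n) : ℝ := pd i (wf u) x

/-- `x · ∇w`. -/
noncomputable def dw (u : Pt n → ℝ) (x : Pt n) : ℝ := ∑ i, x i * gw u x i

/-- `v x · ∇w`. -/
noncomputable def bw (u : Pt n → ℝ) (x : Pt n) : ℝ := vf u x * dw u x

namespace QS

variable {g : Tens n} {u : Pt n → ℝ} {U : Set (Pt n)} (h : QS g u U) {x : Pt n} (hx : x ∈ U)

include h hx

lemma christoffel_eq (k i j : Fin n) : christoffel g k i j x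
    = 2⁻¹ * (pf u x * x k * (gw u x i * x j + gw u x j * x i
        + 2 * wf u x * (if i = j then 1 else 0))
      - gw u x k * (x i * x j) + bw u x * x k * (x i * x j)) := by
  have e : ∀ l, pd i (fun y => g y j l) x + pd j (fun y => g y i l) x
      - pd l (fun y => g y i j) x = (gw u x i * x j + gw u x j * x i
        + 2 * wf u x * (if i = j then 1 else 0)) * x l - gw u x l * (x i * x j) := by
    intro l
    simp only [h.pd_metric hx, gw]
    rcases eq_or_ne i j with rfl | hij
    · simp only [if_true, eq_comm (a := l)]; ring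
    · simp only [if_neg hij, if_neg hij.symm, eq_comm (a := l)]; ring
  simp only [christoffel, e]
  rw [h.ginv_vec hx (fun l => _ * x l - gw u x l * (x i * x j)) k]
  have d : dot x (fun l => (gw u x i * x j + gw u x j * x i
        + 2 * wf u x * (if i = j then 1 else 0)) * x l - gw u x l * (x i * x j))
      = (gw u x i * x j + gw u x j * x i + 2 * wf u x * (if i = j then 1 else 0)) * rsq x
        - dw u x * (x i * x j) := by
    simp only [dot, dw, rsq, mul_sub, Finset.sum_sub_distrib, Finset.mul_sum, Finset.sum_mul]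
    congr 1 <;> exact Finset.sum_congr rfl fun l _ => by ring
  rw [d, bw, ← h.one_sub_v hx]
  ring

lemma gw_eq (i : Fin n) : gw u x i
    = 2 * u x * pd i u x / rsq x - (u x ^ 2 - 1) * (2 * x i) / rsq x ^ 2 := by
  have hr := (h.rsq_pos hx).ne'
  have e : wf u = fun y => (u y * u y - 1) * (rsq y)⁻¹ :=
    funext fun y => by simp [wf, div_eq_mul_inv, sq]
  have hu := h.differentiableAt_u hx
  rw [gw, e, pd_mul ((hu.fun_mul hu).sub_const 1) (differentiableAt_rsq.fun_inv hr),
    pd_sub (hu.fun_mul hu) (differentiableAt_const _), pd_mul hu hu, pd_const,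
    pd_inv differentiableAt_rsq hr, pd_rsq]
  field_simp
  ring

lemma pd_pf (i : Fin n) : pd i (pf u) x = -2 * pd i u x / u x ^ 3 := by
  have h0 := (h.pos x hx).ne'
  have hu := h.differentiableAt_u hx
  have e : pf u = fun y => (u y * u y)⁻¹ := funext fun y => by simp [pf, sq]
  rw [e, pd_inv (hu.fun_mul hu) (mul_ne_zero h0 h0), pd_mul hu hu]
  field_simp
  ring

end QS

end Vale.P366
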