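import Vale.Agent.P366.Extrinsic

/-!
# The constraint densities in a quasi-spherical chart (P366)
-/

open scoped Topology

namespace Vale.P366

variable {n : ℕ}

/-- `K` is a symmetric tensor of class `C²` on `U`. -/
structure SymData (K : Tens n) (U : Set (Pt n)) : Prop where
  smooth : ∀ i j, ContDiffOn ℝ 2 (fun y => K y i j) U
  symm : ∀ x ∈ U, ∀ i j, K x i j = K x j i

/-- The divergence of the tangential part of `K(ν,·)`. -/
noncomputable def divk (u : Pt n → ℝ) (K : Tens n) (x : Pt n) : ℝ :=
  ∑ a, pd a (fun y => kF u K y a) x

/-- `x · ∇b`. -/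
noncomputable def db (K : Tens n) (x : Pt n) : ℝ := ∑ a, x a * pd a (bF K) x

variable {g : Tens n} {u : Pt n → ℝ} {U : Set (Pt n)} {K : Tens n} {x : Pt n}

lemma SymData.differentiableAt (hK : SymData K U) (hU : IsOpen U) (hx : x ∈ U) (i j : Fin n) :
    DifferentiableAt ℝ (fun y => K y i j) x :=
  ((hK.smooth i j).contDiffAt (hU.mem_nhds hx)).differentiableAt two_ne_zero

lemma differentiableAt_proj (hx : x ≠ 0) (i j : Fin n) :
    DifferentiableAt ℝ (fun y => proj y i j) x :=
  (differentiableAt_const _).fun_sub
    (((differentiableAt_coord i).fun_mul (differentiableAt_coord j)).fun_mul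
      (differentiableAt_rsq.fun_inv (rsq_pos hx).ne'))

namespace QS

variable (h : QS g u U) (hK : SymData K U) (hx : x ∈ U)

include h hx

lemma differentiableAt_nu (i : Fin n) : DifferentiableAt ℝ (fun y => nu u y i) x :=
  (differentiableAt_coord i).fun_mul (((h.differentiableAt_u hx).fun_mul
    (differentiableAt_rad (h.ne0 x hx))).fun_inv
      (mul_ne_zero (h.pos x hx).ne' (rad_pos (h.ne0 x hx)).ne'))

include hK

lemma differentiableAt_bF : DifferentiableAt ℝ (bF K) x :=
  (DifferentiableAt.fun_sum fun i _ => DifferentiableAt.fun_sum fun j _ =>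
    (differentiableAt_proj (h.ne0 x hx) i j).fun_mul (hK.differentiableAt h.isOpen hx i j)).fun_mul
    (differentiableAt_const _)

lemma differentiableAt_kF (a : Fin n) : DifferentiableAt ℝ (fun y => kF u K y a) x :=
  DifferentiableAt.fun_sum fun i _ => (differentiableAt_proj (h.ne0 x hx) a i).fun_mul
    (DifferentiableAt.fun_sum fun j _ =>
      (hK.differentiableAt h.isOpen hx i j).fun_mul (h.differentiableAt_nu hx j))

omit hK

lemma kF_tangent : ∑ a, x a * kF u K x a = 0 := by
  have z : ∀ i, ∑ a, x a * proj x a i = 0 := fun i => by
    simp only [proj_symm x _ i, mul_comm (x _)]; exact proj_x (h.ne0 x hx) i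
  simp only [kF, Finset.mul_sum]
  rw [Finset.sum_comm]
  exact Finset.sum_eq_zero fun i _ => by
    rw [Finset.sum_comm]
    exact Finset.sum_eq_zero fun j _ => by
      rw [← zero_mul (K x i j * nu u x j), ← z i, Finset.sum_mul]
      exact Finset.sum_congr rfl fun a _ => by ring

lemma Knu_eq (i : Fin n) :
    ∑ j, K x i j * nu u x j = kF u K x i + aF u K x * (u x * x i / rad x) := by
  have hr := (rad_pos (h.ne0 x hx)).ne'
  have h0 := (h.pos x hx).ne'
  have e : dot x.ofLp (fun a => ∑ j, K x a j * nu u x j) = u x * rad x * aF u K x := by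
    simp only [dot, aF, Finset.mul_sum]
    exact Finset.sum_congr rfl fun a _ => Finset.sum_congr rfl fun j _ => by
      simp only [nu]; field_simp
  rw [kF, proj_vec, e, ← rad_sq (x := x)]
  field_simp
  ring

lemma traceG_eq (hn : 2 ≤ n) : traceG g K x = (n - 1) * bF K x + aF u K x := by
  have : (n : ℝ) - 1 ≠ 0 := by
    have : (2 : ℝ) ≤ n := by exact_mod_cast hn
    linarith
  simp only [traceG, h.ginv_split hx, add_mul, Finset.sum_add_distrib, bF, aF]
  rw [mul_div_cancel₀ _ this]
  congr 1
  exact Finset.sum_congr rfl fun i _ => Finset.sum_congr rfl fun j _ => by ring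

include hK

lemma normSqG_ge (hn : 2 ≤ n) :
    (n - 1) * bF K x ^ 2 + 2 * dot (kF u K x) (kF u K x) + aF u K x ^ 2 ≤ normSqG g K x := by
  have hn' : (0 : ℝ) < n - 1 := by
    have : (2 : ℝ) ≤ n := by exact_mod_cast hn
    linarith
  have hx0 := h.ne0 x hx
  let w : Fin n → ℝ := fun i => ∑ j, K x i j * nu u x j
  let M : Fin n → Fin n → ℝ := fun a c => ∑ i, ∑ j, proj x a i * proj x c j * K x i j
  have eM : ∑ a, ∑ c, M a c * M a c
      = ∑ i, ∑ j, ∑ p, ∑ m, proj x i p * proj x j m * K x i j * K x p m := by
    calc ∑ a, ∑ c, M a c * M a c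
        = ∑ a, ∑ c, ∑ i, ∑ j, ∑ p, ∑ m,
          (proj x a i * proj x a p) * ((proj x c j * proj x c m) * (K x i j * K x p m)) := by
          refine Finset.sum_congr rfl fun a _ => Finset.sum_congr rfl fun c _ => ?_
          simp only [M, Finset.sum_mul]
          refine Finset.sum_congr rfl fun i _ => Finset.sum_congr rfl fun j _ => ?_
          simp only [Finset.mul_sum]
          exact Finset.sum_congr rfl fun p _ => Finset.sum_congr rfl fun m _ => by ring
      _ = ∑ i, ∑ j, ∑ p, ∑ m, ∑ a, ∑ c,
          (proj x a i * proj x a p) * ((proj x c j * proj x c m) * (K x i j * K x p m)) := by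
          rw [Finset.sum_congr rfl fun a _ => Finset.sum_comm, Finset.sum_comm]
          refine Finset.sum_congr rfl fun i _ => ?_
          rw [Finset.sum_congr rfl fun a _ => Finset.sum_comm, Finset.sum_comm]
          refine Finset.sum_congr rfl fun j _ => ?_
          rw [Finset.sum_congr rfl fun a _ => Finset.sum_comm, Finset.sum_comm]
          refine Finset.sum_congr rfl fun p _ => ?_
          rw [Finset.sum_congr rfl fun a _ => Finset.sum_comm, Finset.sum_comm]
      _ = _ := by
          refine Finset.sum_congr rfl fun i _ => Finset.sum_congr rfl fun j _ =>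
            Finset.sum_congr rfl fun p _ => Finset.sum_congr rfl fun m _ => ?_
          simp only [← Finset.mul_sum, ← Finset.sum_mul, proj_sq hx0]
          ring
  have eT : ∑ a, M a a = (n - 1) * bF K x := by
    rw [bF, mul_div_cancel₀ _ hn'.ne', Finset.sum_comm]
    refine Finset.sum_congr rfl fun i _ => ?_
    rw [Finset.sum_comm]
    refine Finset.sum_congr rfl fun j _ => ?_
    rw [← Finset.sum_mul, proj_sq hx0]
  have eS : ∀ a, ∑ c, proj x a c * M a c = M a a := fun a => by
    simp only [M, Finset.mul_sum]
    rw [Finset.sum_comm]
    refine Finset.sum_congr rfl fun i _ => ?_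
    rw [Finset.sum_comm]
    refine Finset.sum_congr rfl fun j _ => ?_
    calc ∑ c, proj x a c * (proj x a i * proj x c j * K x i j)
        = proj x a i * K x i j * ∑ c, proj x c a * proj x c j := by
          rw [Finset.mul_sum]
          exact Finset.sum_congr rfl fun c _ => by rw [proj_symm x a c]; ring
      _ = _ := by rw [proj_sq hx0]; ring
  have hCS : (n - 1) * bF K x ^ 2 ≤ ∑ a, ∑ c, M a c * M a c := by
    have c := Finset.sum_mul_sq_le_sq_mul_sq (Finset.univ : Finset (Fin n × Fin n))
      (fun q => proj x q.1 q.2) (fun q => M q.1 q.2)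
    have eP : ∑ a, ∑ c, proj x a c ^ 2 = (n : ℝ) - 1 := by
      rw [Finset.sum_comm]
      simp only [sq, proj_sq hx0, proj_trace hx0]
    simp only [Fintype.sum_prod_type, eS, eT, eP] at c
    simp only [sq] at c ⊢
    nlinarith
  have ek : dot (kF u K x) (kF u K x) = ∑ i, ∑ p, proj x i p * w i * w p := by
    calc dot (kF u K x) (kF u K x)
        = ∑ a, ∑ i, ∑ p, (proj x a i * proj x a p) * (w i * w p) := by
          simp only [dot, kF, Finset.sum_mul_sum]
          exact Finset.sum_congr rfl fun a _ => Finset.sum_congr rfl fun i _ =>
            Finset.sum_congr rfl fun p _ => by simp only [w]; ring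
      _ = _ := by
          rw [Finset.sum_comm]
          refine Finset.sum_congr rfl fun i _ => ?_
          rw [Finset.sum_comm]
          refine Finset.sum_congr rfl fun p _ => ?_
          rw [← Finset.sum_mul, proj_sq hx0]; ring
  have ea : aF u K x = ∑ i, w i * nu u x i := by
    simp only [aF, w, Finset.sum_mul]
    exact Finset.sum_congr rfl fun i _ => Finset.sum_congr rfl fun j _ => by ring
  have key : normSqG g K x = (∑ i, ∑ j, ∑ p, ∑ m, proj x i p * proj x j m * K x i j * K x p m)
      + 2 * (∑ i, ∑ p, proj x i p * w i * w p) + (∑ i, w i * nu u x i) ^ 2 := by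
    have c1 : ∑ i, ∑ p, proj x i p * w i * w p
        = ∑ i, ∑ j, ∑ p, ∑ m, proj x i p * (nu u x j * nu u x m) * K x i j * K x p m := by
      refine Finset.sum_congr rfl fun i _ => ?_
      rw [Finset.sum_comm (s := Finset.univ) (t := Finset.univ)
        (f := fun j p => ∑ m, proj x i p * (nu u x j * nu u x m) * K x i j * K x p m)]
      refine Finset.sum_congr rfl fun p _ => ?_
      simp only [w, Finset.mul_sum, Finset.sum_mul]
      rw [Finset.sum_comm]
      exact Finset.sum_congr rfl fun j _ => Finset.sum_congr rfl fun m _ => by ring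
    have c2 : ∑ i, ∑ p, proj x i p * w i * w p
        = ∑ i, ∑ j, ∑ p, ∑ m, (nu u x i * nu u x p) * proj x j m * K x i j * K x p m := by
      rw [c1, Finset.sum_comm]
      refine Finset.sum_congr rfl fun j _ => Finset.sum_congr rfl fun i _ => ?_
      rw [Finset.sum_comm]
      exact Finset.sum_congr rfl fun m _ => Finset.sum_congr rfl fun p _ => by
        rw [hK.symm x hx i j, hK.symm x hx p m]; ring
    have c3 : (∑ i, w i * nu u x i) ^ 2 = ∑ i, ∑ j, ∑ p, ∑ m,
        (nu u x i * nu u x p) * (nu u x j * nu u x m) * K x i j * K x p m := by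
      simp only [sq, w, Finset.sum_mul]
      refine Finset.sum_congr rfl fun i _ => Finset.sum_congr rfl fun j _ => ?_
      simp only [Finset.mul_sum]
      exact Finset.sum_congr rfl fun p _ => Finset.sum_congr rfl fun m _ => by ring
    conv_rhs => rw [two_mul]; arg 1; arg 2; arg 1; rw [c1]
    rw [c2, c3]
    simp only [normSqG, h.ginv_split hx, ← Finset.sum_add_distrib]
    exact Finset.sum_congr rfl fun i _ => Finset.sum_congr rfl fun j _ =>
      Finset.sum_congr rfl fun p _ => Finset.sum_congr rfl fun m _ => by ring
  rw [key, ← ea, ← ek, ← eM]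
  linarith

omit hK

lemma momDensity_le : (∑ i, nu u x i * momDensity g K x i) ^ 2
    ≤ ∑ i, ∑ j, ginv g x i j * momDensity g K x i * momDensity g K x j := by
  set J := momDensity g K x
  have e : ∑ i, ∑ j, ginv g x i j * J i * J j
      = (∑ a, (∑ i, proj x a i * J i) ^ 2) + (∑ i, nu u x i * J i) ^ 2 := by
    have e1 : ∑ a, (∑ i, proj x a i * J i) ^ 2 = ∑ i, ∑ j, proj x i j * J i * J j := by
      calc ∑ a, (∑ i, proj x a i * J i) ^ 2
          = ∑ a, ∑ i, ∑ j, (proj x a i * proj x a j) * (J i * J j) := by
            simp only [sq, Finset.sum_mul_sum]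
            exact Finset.sum_congr rfl fun a _ => Finset.sum_congr rfl fun i _ =>
              Finset.sum_congr rfl fun j _ => by ring
        _ = _ := by
            rw [Finset.sum_comm]
            refine Finset.sum_congr rfl fun i _ => ?_
            rw [Finset.sum_comm]
            refine Finset.sum_congr rfl fun j _ => ?_
            rw [← Finset.sum_mul, proj_sq (h.ne0 x hx)]; ring
    rw [e1, sq, Finset.sum_mul_sum]
    simp only [h.ginv_split hx, ← Finset.sum_add_distrib]
    exact Finset.sum_congr rfl fun i _ => Finset.sum_congr rfl fun j _ => by ring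
  rw [e]
  exact le_add_of_nonneg_left (Finset.sum_nonneg fun a _ => sq_nonneg _)

include hK

/-- The normal component of the momentum density. -/
theorem momDensity_nu (hn : 2 ≤ n) : ∑ i, nu u x i * momDensity g K x i
    = divk u K x + 2 * dot (kF u K x) (tau u x) / u x
      - (n - 1) * (db K x + bF K x - aF u K x) / (u x * rad x) := by
  have hx0 := h.ne0 x hx
  have h0 := (h.pos x hx).ne'
  have hr := (rad_pos hx0).ne'
  have hq := (h.rsq_pos hx).ne'
  set t := traceG g K x
  let π := momTensor g K
  let ρ : Pt n → Fin n → ℝ := fun y c => kF u K y c - (n - 1) * bF K y * (u y * y c / rad y)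
  have hρ : ∀ y ∈ U, ∀ c, ∑ i, π y c i * nu u y i = ρ y c := by
    intro y hy c
    have h0' := (h.pos y hy).ne'
    have hr' := (rad_pos (h.ne0 y hy)).ne'
    have eg : ∑ i, g y c i * nu u y i = u y * y c / rad y := by
      calc ∑ i, g y c i * nu u y i
          = ∑ i, ((if c = i then (1 : ℝ) else 0) * nu u y i
            + wf u y * y c / (u y * rad y) * (y i * y i)) :=
            Finset.sum_congr rfl fun i _ => by rw [h.form_w hy]; simp only [nu]; ring
        _ = nu u y c + wf u y * y c / (u y * rad y) * rsq y := by
            simp [Finset.sum_add_distrib, ← Finset.mul_sum, rsq]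
        _ = _ := by
            have := (h.rsq_pos hy).ne'
            simp only [nu, wf]; field_simp; ring
    simp only [π, momTensor, Matrix.sub_apply, Matrix.smul_apply, smul_eq_mul, sub_mul,
      Finset.sum_sub_distrib, mul_assoc, ← Finset.mul_sum]
    rw [eg, h.Knu_eq hy, h.traceG_eq hy hn]
    simp only [ρ]; ring
  have hsymm : ∀ c i, π x c i = π x i c := fun c i => by
    simp only [π, momTensor, Matrix.sub_apply, Matrix.smul_apply, smul_eq_mul, hK.symm x hx c i,
      h.form_w hx, eq_comm (a := c) (b := i)]
    ring
  have dπ : ∀ c i, DifferentiableAt ℝ (fun y => π y c i) x := by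
    intro c i
    have e : (fun y => π y c i) =ᶠ[𝓝 x] fun y => K y c i
        - ((n - 1) * bF K y + ∑ a, ∑ b, K y a b * nu u y a * nu u y b)
          * ((if c = i then 1 else 0) + wf u y * y c * y i) :=
      Filter.eventually_of_mem (h.mem_nhds hx) fun y hy => by
        show π y c i = _
        simp only [π, momTensor, Matrix.sub_apply, Matrix.smul_apply, smul_eq_mul,
          h.traceG_eq hy hn, h.form_w hy, aF]
    exact ((hK.differentiableAt h.isOpen hx c i).fun_sub
      ((((differentiableAt_const _).fun_mul (h.differentiableAt_bF hK hx)).fun_add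
        (DifferentiableAt.fun_sum fun a _ => DifferentiableAt.fun_sum fun b _ =>
          ((hK.differentiableAt h.isOpen hx a b).fun_mul (h.differentiableAt_nu hx a)).fun_mul
            (h.differentiableAt_nu hx b))).fun_mul
        ((differentiableAt_const _).fun_add (((h.differentiableAt_wf hx).fun_mul
          (differentiableAt_coord c)).fun_mul (differentiableAt_coord i))))).congr_of_eventuallyEq e
  have hdρ : ∀ a c, pd a (fun y => ρ y c) x
      = ∑ i, (pd a (fun y => π y c i) x * nu u x i + π x c i * pd a (fun y => nu u y i) x) := by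
    intro a c
    have e : (fun y => ρ y c) =ᶠ[𝓝 x] fun y => ∑ i, π y c i * nu u y i :=
      Filter.eventually_of_mem (h.mem_nhds hx) fun y hy => (hρ y hy c).symm
    rw [pd_congr e, pd_sum fun i _ => (dπ c i).fun_mul (h.differentiableAt_nu hx i)]
    exact Finset.sum_congr rfl fun i _ => pd_mul (dπ c i) (h.differentiableAt_nu hx i)
  have hM : ∀ i a, pd a (fun y => nu u y i) x + ∑ l, christoffel g i a l x * nu u x l
      = proj x a i / (u x * rad x) - x a / rad x * tau u x i := by
    intro i a
    have hd : pd a (fun y => nu u y i) x = (if i = a then 1 else 0) / (u x * rad x)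
        - x i * (pd a u x * rad x + u x * (x a / rad x)) / (u x * rad x) ^ 2 := by
      show pd a (fun y => y i * (u y * rad y)⁻¹) x = _
      have hu := h.differentiableAt_u hx
      have hd := differentiableAt_rad hx0
      rw [pd_mul (differentiableAt_coord i) ((hu.fun_mul hd).fun_inv (mul_ne_zero h0 hr)),
        pd_coord, pd_inv (hu.fun_mul hd) (mul_ne_zero h0 hr), pd_mul hu hd, pd_rad hx0]
      simp only [div_eq_mul_inv]; ring
    have hs : ∑ l, christoffel g i a l x * nu u x l
        = (c1 u x * x i * (gu u x a * rsq x + du u x * x a) + vf u x * x i * x a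
          + c3 u x * gu u x i * x a * rsq x + c4 u x * x i * x a * rsq x) / (u x * rad x) := by
      calc ∑ l, christoffel g i a l x * nu u x l
          = ∑ l, (c1 u x * x i * gu u x a / (u x * rad x) * (x l * x l)
              + c1 u x * x i * x a / (u x * rad x) * (x l * gu u x l)
              + vf u x * x i / (u x * rad x) * (x l * (if a = l then 1 else 0))
              + (c3 u x * gu u x i + c4 u x * x i) * x a / (u x * rad x) * (x l * x l)) :=
            Finset.sum_congr rfl fun l _ => by
              rw [h.christoffel_u hx]; simp only [nu]; ring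
        _ = _ := by
            simp only [Finset.sum_add_distrib, ← Finset.mul_sum, sum_mul_ite, rsq, du, dot]
            ring
    rw [hd, hs]
    simp only [proj, tau, c1, c3, c4, vf, gu, ← rad_sq (x := x), eq_comm (a := i) (b := a)]
    field_simp
    ring
  let X : Pt n → Fin n → ℝ := fun y a => kF u K y a - (n - 1) * bF K y * nu u y a
  have hX : ∀ y ∈ U, ∀ a, ∑ c, ginv g y a c * ρ y c = X y a := by
    intro y hy a
    have h0' := (h.pos y hy).ne'
    have hr' := (rad_pos (h.ne0 y hy)).ne'
    have t1 : dot y.ofLp (kF u K y) = 0 := h.kF_tangent hy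
    rw [h.ginv_vec hy]
    have t2 : dot y.ofLp (ρ y) = -(n - 1) * bF K y * (u y / rad y) * rsq y := by
      calc dot y.ofLp (ρ y) = ∑ c, (y c * kF u K y c
            + -(n - 1) * bF K y * (u y / rad y) * (y c * y c)) :=
            Finset.sum_congr rfl fun c _ => by simp only [ρ]; ring
        _ = _ := by
            rw [Finset.sum_add_distrib, ← Finset.mul_sum]
            simp only [dot] at t1
            rw [t1]; simp [rsq]
    rw [t2]
    simp only [ρ, X, nu, vf, ← rad_sq (x := y)]
    field_simp
    ring
  -- contraction of the Leibniz rule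
  have hdX : ∑ a, ∑ c, ginv g x a c * pd a (fun y => ρ y c) x
      - ∑ l, (∑ a, ∑ c, ginv g x a c * christoffel g l a c x) * ρ x l
      = (∑ a, pd a (fun y => X y a) x) + ∑ c, ρ x c * (gu u x c - vf u x * x c * du u x) / u x := by
    have dρ : ∀ c, DifferentiableAt ℝ (fun y => ρ y c) x := fun c =>
      (h.differentiableAt_kF hK hx c).fun_sub (((differentiableAt_const _).fun_mul
        (h.differentiableAt_bF hK hx)).fun_mul (((h.differentiableAt_u hx).fun_mul
          (differentiableAt_coord c)).fun_mul ((differentiableAt_rad hx0).fun_inv hr)))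
    have dG : ∀ a c, DifferentiableAt ℝ (fun y => ginv g y a c) x ∧ pd a (fun y => ginv g y a c) x
        = -(pd a (vf u) x * x a * x c + vf u x * x c
          + vf u x * x a * (if c = a then 1 else 0)) := by
      intro a c
      have e : (fun y => ginv g y a c) =ᶠ[𝓝 x]
          fun y => (if a = c then 1 else 0) - vf u y * y a * y c :=
        Filter.eventually_of_mem (h.mem_nhds hx) fun y hy => h.ginv_eq hy a c
      have dv := h.differentiableAt_vf hx
      have d1 := (dv.fun_mul (differentiableAt_coord a)).fun_mul (differentiableAt_coord c)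
      refine ⟨((differentiableAt_const _).fun_sub d1).congr_of_eventuallyEq e, ?_⟩
      rw [pd_congr e, pd_sub (differentiableAt_const _) d1, pd_const,
        pd_mul (dv.fun_mul (differentiableAt_coord a)) (differentiableAt_coord c),
        pd_mul dv (differentiableAt_coord a), pd_coord, pd_coord, if_pos rfl]
      ring
    have hcoef : ∀ c, (∑ a, pd a (fun y => ginv g y a c) x)
        + ∑ a, ∑ b, ginv g x a b * christoffel g c a b x
        = -(gu u x c - vf u x * x c * du u x) / u x := by
      intro c
      have e1 : ∑ a, pd a (fun y => ginv g y a c) x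
          = -((∑ a, x a * pd a (vf u) x) * x c + n * vf u x * x c + vf u x * x c) := by
        simp only [fun a => (dG a c).2, Finset.sum_neg_distrib, Finset.sum_add_distrib,
          Finset.sum_const, Finset.card_univ, Fintype.card_fin, nsmul_eq_mul, Finset.sum_mul,
          mul_ite, mul_one, mul_zero, Finset.sum_ite_eq, Finset.mem_univ, if_true]
        rw [show ∑ a, pd a (vf u) x * x a * x c = ∑ a, x a * pd a (vf u) x * x c from
          Finset.sum_congr rfl fun a _ => by ring]
        ring
      rw [e1, h.x_pd_vf hx, h.christoffel_contract hx]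
      simp only [c1, c3, c4, vf, pf]
      field_simp
      ring
    have hXd : ∀ a, pd a (fun y => X y a) x = ∑ c, (pd a (fun y => ginv g y a c) x * ρ x c
        + ginv g x a c * pd a (fun y => ρ y c) x) := by
      intro a
      have e : (fun y => X y a) =ᶠ[𝓝 x] fun y => ∑ c, ginv g y a c * ρ y c :=
        Filter.eventually_of_mem (h.mem_nhds hx) fun y hy => (hX y hy a).symm
      rw [pd_congr e, pd_sum fun c _ => (dG a c).1.fun_mul (dρ c)]
      exact Finset.sum_congr rfl fun c _ => pd_mul (dG a c).1 (dρ c)
    simp only [hXd, Finset.sum_add_distrib]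
    have e3 : ∑ c, ρ x c * (gu u x c - vf u x * x c * du u x) / u x
        = -(∑ a, ∑ c, pd a (fun y => ginv g y a c) x * ρ x c)
          - ∑ l, (∑ a, ∑ c, ginv g x a c * christoffel g l a c x) * ρ x l := by
      rw [Finset.sum_comm (f := fun a c => pd a (fun y => ginv g y a c) x * ρ x c),
        ← Finset.sum_neg_distrib, ← Finset.sum_sub_distrib]
      refine Finset.sum_congr rfl fun c _ => ?_
      rw [← Finset.sum_mul]
      linear_combination (ρ x c) * hcoef c
    rw [e3]; ring
  have hdiv : ∑ a, pd a (fun y => X y a) x = divk u K x
      - (n - 1) * ((db K x + (n - 1) * bF K x) / (u x * rad x)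
        - bF K x * du u x / (u x ^ 2 * rad x)) := by
    have hu := h.differentiableAt_u hx
    have hd := differentiableAt_rad hx0
    have db' := h.differentiableAt_bF hK hx
    calc ∑ a, pd a (fun y => X y a) x
        = ∑ a, (pd a (fun y => kF u K y a) x
          + -((n - 1) / (u x * rad x)) * (x a * pd a (bF K) x)
          + -((n - 1) * bF K x / (u x * rad x))
          + (n - 1) * bF K x / (u x ^ 2 * rad x) * (x a * gu u x a)
          + (n - 1) * bF K x / (u x * rad x * rad x * rad x) * (x a * x a)) := by
          refine Finset.sum_congr rfl fun a _ => ?_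
          rw [pd_sub (h.differentiableAt_kF hK hx a) (((differentiableAt_const _).fun_mul db').fun_mul
            (h.differentiableAt_nu hx a)), pd_mul ((differentiableAt_const _).fun_mul db')
            (h.differentiableAt_nu hx a), pd_const_mul _ db',
            show pd a (fun y => nu u y a) x = pd a (fun y => y a * (u y * rad y)⁻¹) x from rfl,
            pd_mul (differentiableAt_coord a) ((hu.fun_mul hd).fun_inv (mul_ne_zero h0 hr)),
            pd_coord, if_pos rfl, pd_inv (hu.fun_mul hd) (mul_ne_zero h0 hr), pd_mul hu hd,
            pd_rad hx0]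
          simp only [nu, gu]
          field_simp
          ring
      _ = _ := by
          simp only [Finset.sum_add_distrib, ← Finset.mul_sum, Finset.sum_const, Finset.card_univ,
            Fintype.card_fin, nsmul_eq_mul, divk, db]
          rw [show ∑ k, x k * x k = rsq x from rfl, show ∑ k, x k * gu u x k = du u x from rfl,
            ← rad_sq (x := x)]
          field_simp
          ring
  have hρu : ∑ c, ρ x c * (gu u x c - vf u x * x c * du u x) / u x
      = dot (kF u K x) (tau u x) / u x - (n - 1) * bF K x * du u x / (u x ^ 2 * rad x) := by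
    have t1 : ∑ c, x c * kF u K x c = 0 := h.kF_tangent hx
    have t3 : dot (kF u K x) (tau u x) = ∑ c, kF u K x c * gu u x c := by
      simp only [dot, tau, mul_sub, Finset.sum_sub_distrib]
      rw [sub_eq_self]
      calc ∑ c, kF u K x c * (x c * du u x / rsq x)
          = du u x / rsq x * ∑ c, x c * kF u K x c := by
            rw [Finset.mul_sum]; exact Finset.sum_congr rfl fun c _ => by ring
        _ = 0 := by rw [t1, mul_zero]
    calc ∑ c, ρ x c * (gu u x c - vf u x * x c * du u x) / u x
        = ∑ c, (1 / u x * (kF u K x c * gu u x c)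
          + -(vf u x * du u x / u x) * (x c * kF u K x c)
          + -((n - 1) * bF K x / rad x) * (x c * gu u x c)
          + (n - 1) * bF K x * vf u x * du u x / rad x * (x c * x c)) :=
          Finset.sum_congr rfl fun c _ => by simp only [ρ]; field_simp; ring
      _ = _ := by
          simp only [Finset.sum_add_distrib, ← Finset.mul_sum]
          rw [t1, show ∑ k, x k * x k = rsq x from rfl,
            show ∑ k, x k * gu u x k = du u x from rfl, ← t3]
          simp only [vf, ← rad_sq (x := x)]
          field_simp
          ring
  have hlast : ∑ a, ∑ c, ginv g x a c * ∑ i, π x c i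
        * (pd a (fun y => nu u y i) x + ∑ l, christoffel g i a l x * nu u x l)
      = -((n - 1) * ((n - 2) * bF K x + aF u K x)) / (u x * rad x)
        - dot (kF u K x) (tau u x) / u x := by
    simp only [hM]
    have eP : ∀ c i, ∑ a, ginv g x a c * proj x a i = proj x c i := fun c i => by
      have z : ∑ a, x a * proj x a i = 0 := by
        simp only [proj_symm x _ i, mul_comm (x _)]; exact proj_x hx0 i
      calc ∑ a, ginv g x a c * proj x a i
          = ∑ a, ((if a = c then (1 : ℝ) else 0) * proj x a i
            - vf u x * x c * (x a * proj x a i)) :=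
            Finset.sum_congr rfl fun a _ => by rw [h.ginv_eq hx]; ring
        _ = _ := by rw [Finset.sum_sub_distrib, ← Finset.mul_sum, z]; simp
    have eX : ∀ c, ∑ a, ginv g x a c * x a = rad x / u x * nu u x c := fun c => by
      calc ∑ a, ginv g x a c * x a = ∑ a, ((if a = c then (1 : ℝ) else 0) * x a
            - vf u x * x c * (x a * x a)) :=
            Finset.sum_congr rfl fun a _ => by rw [h.ginv_eq hx]; ring
        _ = x c - vf u x * x c * rsq x := by
            simp [Finset.sum_sub_distrib, ← Finset.mul_sum, rsq]
        _ = _ := by simp only [nu, vf]; field_simp; ring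
    calc ∑ a, ∑ c, ginv g x a c * ∑ i, π x c i
          * (proj x a i / (u x * rad x) - x a / rad x * tau u x i)
        = ∑ c, ∑ i, ((∑ a, ginv g x a c * proj x a i) * π x c i / (u x * rad x)
            - (∑ a, ginv g x a c * x a) / rad x * π x c i * tau u x i) := by
          rw [Finset.sum_comm]
          refine Finset.sum_congr rfl fun c _ => ?_
          simp only [Finset.mul_sum, Finset.sum_mul, Finset.sum_div, ← Finset.sum_sub_distrib]
          rw [Finset.sum_comm]
          exact Finset.sum_congr rfl fun i _ => Finset.sum_congr rfl fun a _ => by ring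
      _ = (∑ c, ∑ i, proj x c i * π x c i) / (u x * rad x)
            - 1 / u x * ∑ i, (∑ c, π x i c * nu u x c) * tau u x i := by
          simp only [eP, eX, Finset.sum_sub_distrib, Finset.sum_div]
          congr 1
          rw [Finset.sum_comm, Finset.mul_sum]
          refine Finset.sum_congr rfl fun i _ => ?_
          rw [Finset.sum_mul, Finset.mul_sum]
          refine Finset.sum_congr rfl fun c _ => ?_
          rw [hsymm c i]; field_simp
      _ = _ := by
          have e1 : ∑ c, ∑ i, proj x c i * π x c i
              = (n - 1) * bF K x - t * ∑ c, ∑ i, proj x c i * g x c i := by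
            have : (n : ℝ) - 1 ≠ 0 := by
              have : (2 : ℝ) ≤ n := by exact_mod_cast hn
              linarith
            rw [bF, mul_div_cancel₀ _ this]
            simp only [π, momTensor, Matrix.sub_apply, Matrix.smul_apply, smul_eq_mul,
              Finset.mul_sum, ← Finset.sum_sub_distrib, t]
            exact Finset.sum_congr rfl fun i _ => Finset.sum_congr rfl fun j _ => by ring
          have e2 : ∑ c, ∑ i, proj x c i * g x c i = n - 1 := by
            calc ∑ c, ∑ i, proj x c i * g x c i
                = ∑ c, ((∑ i, proj x c i * (if c = i then (1 : ℝ) else 0))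
                  + wf u x * x c * ∑ i, proj x c i * x i) := by
                  refine Finset.sum_congr rfl fun c _ => ?_
                  rw [Finset.mul_sum, ← Finset.sum_add_distrib]
                  exact Finset.sum_congr rfl fun i _ => by rw [h.form_w hx]; ring
              _ = _ := by simp [proj_x hx0, proj_trace hx0]
          have e3 : ∑ i, (∑ c, π x i c * nu u x c) * tau u x i = dot (kF u K x) (tau u x) := by
            have z : ∑ i, x i * tau u x i = 0 := by
              simp only [tau, mul_sub, Finset.sum_sub_distrib]
              rw [show ∑ k, x k * gu u x k = du u x from rfl]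
              rw [show ∑ i, x i * (x i * du u x / rsq x) = du u x / rsq x * rsq x from by
                simp only [rsq, Finset.mul_sum]; exact Finset.sum_congr rfl fun c _ => by ring]
              field_simp; ring
            calc ∑ i, (∑ c, π x i c * nu u x c) * tau u x i
                = ∑ i, (kF u K x i * tau u x i
                  + -((n - 1) * bF K x * u x / rad x) * (x i * tau u x i)) :=
                  Finset.sum_congr rfl fun i _ => by rw [hρ x hx]; simp only [ρ]; ring
              _ = _ := by
                  rw [Finset.sum_add_distrib, ← Finset.mul_sum, z]; simp [dot]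
          rw [e1, e2, e3, show t = _ from h.traceG_eq hx hn]
          field_simp
          ring
  have hJ : ∑ i, nu u x i * momDensity g K x i
      = (∑ a, ∑ c, ginv g x a c * pd a (fun y => ρ y c) x)
        - (∑ l, (∑ a, ∑ c, ginv g x a c * christoffel g l a c x) * ρ x l)
        - ∑ a, ∑ c, ginv g x a c * ∑ i, π x c i
          * (pd a (fun y => nu u y i) x + ∑ l, christoffel g i a l x * nu u x l) := by
    have e1 : ∑ l, (∑ a, ∑ c, ginv g x a c * christoffel g l a c x) * ρ x l
        = ∑ a, ∑ c, ginv g x a c * ∑ i, ∑ l, christoffel g l a c x * π x l i * nu u x i := by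
      simp only [Finset.sum_mul]
      rw [Finset.sum_comm]
      refine Finset.sum_congr rfl fun a _ => ?_
      rw [Finset.sum_comm]
      refine Finset.sum_congr rfl fun c _ => ?_
      rw [Finset.sum_comm (f := fun i l => christoffel g l a c x * π x l i * nu u x i),
        Finset.mul_sum]
      refine Finset.sum_congr rfl fun l _ => ?_
      rw [← hρ x hx l, Finset.mul_sum, Finset.mul_sum]
      exact Finset.sum_congr rfl fun i _ => by ring
    have e2 : ∀ a c, ∑ i, π x c i * ∑ l, christoffel g i a l x * nu u x l
        = ∑ i, ∑ l, christoffel g l a i x * π x c l * nu u x i := by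
      intro a c
      rw [Finset.sum_comm (f := fun i l => christoffel g l a i x * π x c l * nu u x i)]
      simp only [Finset.mul_sum]
      exact Finset.sum_congr rfl fun i _ => Finset.sum_congr rfl fun l _ => by ring
    calc ∑ i, nu u x i * momDensity g K x i
        = ∑ a, ∑ c, ginv g x a c * ∑ i, nu u x i * (pd a (fun y => π y c i) x
            - ∑ l, (christoffel g l a c x * π x l i + christoffel g l a i x * π x c l)) := by
          simp only [momDensity, π]
          simp only [Finset.mul_sum]
          rw [Finset.sum_comm]
          refine Finset.sum_congr rfl fun a _ => ?_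
          rw [Finset.sum_comm]
          exact Finset.sum_congr rfl fun c _ => Finset.sum_congr rfl fun i _ => by ring
      _ = _ := by
          rw [e1]
          simp only [← Finset.sum_sub_distrib]
          refine Finset.sum_congr rfl fun a _ => Finset.sum_congr rfl fun c _ => ?_
          simp only [← mul_sub]
          congr 1
          rw [hdρ]
          simp only [mul_sub, mul_add, Finset.mul_sum, Finset.sum_sub_distrib,
            Finset.sum_add_distrib]
          have r1 : ∀ F : Fin n → Fin n → ℝ, ∑ i, ∑ l, nu u x i * F i l
              = ∑ i, ∑ l, F i l * nu u x i := fun F =>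
            Finset.sum_congr rfl fun i _ => Finset.sum_congr rfl fun l _ => by ring
          have r2 : ∑ i, nu u x i * pd a (fun y => π y c i) x
              = ∑ i, pd a (fun y => π y c i) x * nu u x i :=
            Finset.sum_congr rfl fun i _ => by ring
          rw [r1 fun i l => christoffel g l a c x * π x l i,
            r1 fun i l => christoffel g l a i x * π x c l, r2, ← e2]
          simp only [Finset.mul_sum]
          ring
  rw [hJ, hlast]
  have := hdX
  rw [hdiv, hρu] at this
  rw [this]
  field_simp
  ring

end QS

end Vale.P366
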