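import Vale.Agent.P366.Momentum

/-!
# The pointwise monotonicity inequality (P366)
-/

open scoped Topology

namespace Vale.P366

variable {n : ℕ}

/-- The integrand of the mass `r^(n-2) ∫ (1 - u⁻² + r² b²)`. -/
noncomputable def massDens (u : Pt n → ℝ) (K : Tens n) (x : Pt n) : ℝ :=
  1 - pf u x + rsq x * bF K x ^ 2

/-- The tangential vector field whose divergence is subtracted. -/
noncomputable def field (u : Pt n → ℝ) (K : Tens n) (x : Pt n) (a : Fin n) : ℝ :=
  tau u x a / u x + rad x * bF K x * u x * kF u K x a

variable {g : Tens n} {u : Pt n → ℝ} {U : Set (Pt n)} {K : Tens n} {x : Pt n}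

namespace QS

variable (h : QS g u U) (hK : SymData K U) (hx : x ∈ U)

include h hx

lemma differentiableAt_tau (a : Fin n) : DifferentiableAt ℝ (fun y => tau u y a) x :=
  (h.differentiableAt_pd_u hx a).fun_sub (((differentiableAt_coord a).fun_mul
    (h.differentiableAt_du hx)).fun_mul (differentiableAt_rsq.fun_inv (h.rsq_pos hx).ne'))

lemma sum_x_tau : ∑ a, x a * tau u x a = 0 := by
  have hq := (h.rsq_pos hx).ne'
  calc ∑ a, x a * tau u x a = ∑ a, (x a * gu u x a - du u x / rsq x * (x a * x a)) :=
        Finset.sum_congr rfl fun a _ => by simp only [tau]; ring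
    _ = du u x - du u x / rsq x * rsq x := by
        rw [Finset.sum_sub_distrib, ← Finset.mul_sum]; rfl
    _ = 0 := by field_simp; ring

lemma div_tau : ∑ a, pd a (fun y => tau u y a) x = lapS u x := by
  have hq := (h.rsq_pos hx).ne'
  have hdd : ∀ a, pd a (du u) x = gu u x a + ∑ l, x l * pd a (pd l u) x := by
    intro a
    show pd a (fun y => ∑ l, y l * pd l u y) x = _
    rw [pd_sum fun l _ => (differentiableAt_coord l).fun_mul (h.differentiableAt_pd_u hx l)]
    simp only [pd_mul (differentiableAt_coord _) (h.differentiableAt_pd_u hx _), pd_coord]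
    simp [Finset.sum_add_distrib, gu]
  calc ∑ a, pd a (fun y => tau u y a) x
      = ∑ a, (pd a (pd a u) x + -(du u x / rsq x) + -(1 / rsq x) * (x a * gu u x a)
          + -(1 / rsq x) * (x a * ∑ l, x l * pd a (pd l u) x)
          + 2 * du u x / rsq x ^ 2 * (x a * x a)) := by
        refine Finset.sum_congr rfl fun a _ => ?_
        show pd a (fun y => pd a u y - y a * du u y * (rsq y)⁻¹) x = _
        have d1 := (differentiableAt_coord (x := x) a).fun_mul (h.differentiableAt_du hx)
        have d2 := differentiableAt_rsq.fun_inv hq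
        rw [pd_sub (h.differentiableAt_pd_u hx a) (d1.fun_mul d2), pd_mul d1 d2,
          pd_mul (differentiableAt_coord a) (h.differentiableAt_du hx), pd_coord, if_pos rfl,
          pd_inv differentiableAt_rsq hq, pd_rsq, hdd]
        field_simp
        ring
    _ = _ := by
        simp only [Finset.sum_add_distrib, ← Finset.mul_sum, Finset.sum_const, Finset.card_univ,
          Fintype.card_fin, nsmul_eq_mul]
        rw [show ∑ k, x k * x k = rsq x from rfl, show ∑ k, x k * gu u x k = du u x from rfl]
        have e : ∑ a, x a * ∑ l, x l * pd a (pd l u) x = dot x.ofLp (hu u x) := by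
          simp only [dot, hu, Finset.mul_sum]
          rw [Finset.sum_comm]
          exact Finset.sum_congr rfl fun a _ => Finset.sum_congr rfl fun l _ => by ring
        rw [e]
        simp only [lapS, lap]
        field_simp
        ring

include hK

lemma x_pd_massDens : ∑ a, x a * pd a (massDens u K) x
    = 2 * du u x / u x ^ 3 + 2 * rsq x * bF K x ^ 2 + 2 * rsq x * bF K x * db K x := by
  have db' := h.differentiableAt_bF hK hx
  have dp := h.differentiableAt_pf hx
  have hb2 : DifferentiableAt ℝ (fun y => bF K y * bF K y) x := db'.fun_mul db'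
  calc ∑ a, x a * pd a (massDens u K) x
      = ∑ a, (2 / u x ^ 3 * (x a * gu u x a) + 2 * bF K x ^ 2 * (x a * x a)
          + 2 * rsq x * bF K x * (x a * pd a (bF K) x)) := by
        refine Finset.sum_congr rfl fun a _ => ?_
        show x a * pd a (fun y => 1 - pf u y + rsq y * bF K y ^ 2) x = _
        simp only [sq (bF K _)]
        rw [pd_add (dp.const_sub 1) (differentiableAt_rsq.fun_mul hb2),
          pd_sub (differentiableAt_const _) dp, pd_const, h.pd_pf hx,
          pd_mul differentiableAt_rsq hb2, pd_rsq, pd_mul db' db']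
        simp only [gu]
        ring
    _ = _ := by
        simp only [Finset.sum_add_distrib, ← Finset.mul_sum, db]
        rw [show ∑ k, x k * x k = rsq x from rfl, show ∑ k, x k * gu u x k = du u x from rfl]
        ring

lemma div_field (horth : dot (kF u K x) (fun a => pd a (bF K) x) = 0) :
    ∑ a, pd a (fun y => field u K y a) x
      = lapS u x / u x - dot (tau u x) (tau u x) / u x ^ 2 + rad x * bF K x * u x * divk u K x
        + rad x * bF K x * dot (kF u K x) (tau u x) := by
  have hx0 := h.ne0 x hx
  have h0 := (h.pos x hx).ne'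
  have hr := (rad_pos hx0).ne'
  have hq := (h.rsq_pos hx).ne'
  have hu := h.differentiableAt_u hx
  have t1 := h.kF_tangent hx (K := K)
  have t2 : dot (tau u x) (tau u x) = dot (tau u x) (gu u x) := by
    have e : ∀ a, tau u x a * tau u x a
        = tau u x a * gu u x a + -(du u x / rsq x) * (x a * tau u x a) := fun a => by
      simp only [tau]; ring
    simp only [dot, e, Finset.sum_add_distrib, ← Finset.mul_sum, h.sum_x_tau hx]
    ring
  have t3 : dot (kF u K x) (tau u x) = dot (kF u K x) (gu u x) := by
    have e : ∀ a, kF u K x a * tau u x a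
        = kF u K x a * gu u x a + -(du u x / rsq x) * (x a * kF u K x a) := fun a => by
      simp only [tau]; ring
    simp only [dot, e, Finset.sum_add_distrib, ← Finset.mul_sum, t1]
    ring
  calc ∑ a, pd a (fun y => field u K y a) x
      = ∑ a, (1 / u x * pd a (fun y => tau u y a) x + -(1 / u x ^ 2) * (tau u x a * gu u x a)
          + rad x * bF K x * u x * pd a (fun y => kF u K y a) x
          + bF K x * u x / rad x * (x a * kF u K x a)
          + rad x * u x * (kF u K x a * pd a (bF K) x)
          + rad x * bF K x * (kF u K x a * gu u x a)) := by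
        refine Finset.sum_congr rfl fun a _ => ?_
        show pd a (fun y => tau u y a * (u y)⁻¹ + rad y * bF K y * u y * kF u K y a) x = _
        have d1 := h.differentiableAt_tau hx a
        have d2 := hu.fun_inv h0
        have d3 := (differentiableAt_rad hx0).fun_mul (h.differentiableAt_bF hK hx)
        have d4 := d3.fun_mul hu
        have d5 := h.differentiableAt_kF hK hx a
        rw [pd_add (d1.fun_mul d2) (d4.fun_mul d5), pd_mul d1 d2, pd_mul d4 d5, pd_mul d3 hu,
          pd_mul (differentiableAt_rad hx0) (h.differentiableAt_bF hK hx), pd_inv hu h0,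
          pd_rad hx0]
        simp only [gu]
        field_simp
        ring
    _ = _ := by
        simp only [Finset.sum_add_distrib, ← Finset.mul_sum, h.div_tau hx]
        simp only [dot] at horth t2 t3
        rw [t1, horth, ← t2, ← t3]
        simp only [dot, divk]
        ring

/-- The pointwise inequality behind the monotonicity of the mass. -/
theorem key_ineq (hn : 2 ≤ n) (horth : dot (kF u K x) (fun a => pd a (bF K) x) = 0)
    (hdec : DEC g K x) (hun : |u x * rad x * bF K x| ≤ 1) :
    ∑ a, pd a (fun y => field u K y a) x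
      ≤ (n - 1) / (2 * rsq x) * ((n - 2) * massDens u K x + ∑ a, x a * pd a (massDens u K) x) := by
  have hx0 := h.ne0 x hx
  have h0 := h.pos x hx
  have hr := rad_pos hx0
  have hq := h.rsq_pos hx
  set Jn := ∑ i, nu u x i * momDensity g K x i with hJn
  have hJ := h.momDensity_nu hK hx hn
  rw [← hJn] at hJ
  have h1 : |Jn| ≤ energyDensity g K x := by
    refine le_trans ?_ hdec
    rw [← Real.sqrt_sq_eq_abs]
    exact Real.sqrt_le_sqrt (h.momDensity_le hx)
  have h2 : u x * rad x * bF K x * Jn ≤ energyDensity g K x := by
    refine le_trans (le_abs_self _) ?_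
    rw [abs_mul]
    exact le_trans (mul_le_of_le_one_left (abs_nonneg _) hun) h1
  have hμ : 2 * energyDensity g K x ≤ (n - 1) / rsq x
      * ((n - 2) * (1 - pf u x) + 2 * du u x / u x ^ 3) - 2 / u x * lapS u x
      + (n - 1) * (n - 2) * bF K x ^ 2 + 2 * (n - 1) * bF K x * aF u K x
      - 2 * dot (kF u K x) (kF u K x) := by
    have hN := h.normSqG_ge hK hx hn
    rw [energyDensity, h.scalarCurv_eq hx, h.traceG_eq hx hn]
    nlinarith
  have hc : 0 ≤ dot (kF u K x) (kF u K x) + dot (tau u x) (tau u x) / u x ^ 2
      + rad x * bF K x * dot (kF u K x) (tau u x) := by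
    let y := u x * rad x * bF K x
    obtain ⟨hy1, hy2⟩ := abs_le.1 hun
    have p : ∀ s : ℝ, 0 ≤ dot (kF u K x) (kF u K x) + 2 * s * (dot (kF u K x) (tau u x) / u x)
        + s ^ 2 * (dot (tau u x) (tau u x) / u x ^ 2) := by
      intro s
      have : 0 ≤ ∑ a, (kF u K x a + s * (tau u x a / u x)) ^ 2 :=
        Finset.sum_nonneg fun a _ => sq_nonneg _
      refine this.trans_eq ?_
      simp only [dot, Finset.sum_div, Finset.mul_sum, ← Finset.sum_add_distrib]
      exact Finset.sum_congr rfl fun a _ => by ring
    have := p 1
    have := p (-1)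
    have e : rad x * bF K x * dot (kF u K x) (tau u x)
        = y * (dot (kF u K x) (tau u x) / u x) := by
      simp only [y]; field_simp
    have hA := dot_self_nonneg (kF u K x)
    have hB : 0 ≤ dot (tau u x) (tau u x) / u x ^ 2 := div_nonneg (dot_self_nonneg _) (sq_nonneg _)
    rw [e]
    simp only [y]
    nlinarith
  have e1 : u x * rad x * bF K x * Jn = rad x * bF K x * u x * divk u K x
      + 2 * rad x * bF K x * dot (kF u K x) (tau u x)
      - (n - 1) * bF K x * (db K x + bF K x - aF u K x) := by
    rw [hJ]; field_simp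
  have e2 : (n - 1) / (2 * rsq x) * ((n - 2) * massDens u K x + ∑ a, x a * pd a (massDens u K) x)
      = ((n - 1) / rsq x * ((n - 2) * (1 - pf u x) + 2 * du u x / u x ^ 3)) / 2
        + (n - 1) * n / 2 * bF K x ^ 2 + (n - 1) * bF K x * db K x := by
    rw [h.x_pd_massDens hK hx, massDens]
    field_simp
    ring
  rw [h.div_field hK hx horth, e2]
  have e3 : 2 / u x * lapS u x = 2 * (lapS u x / u x) := by ring
  rw [e3] at hμ
  linarith [h2, e1, hμ, hc]

end QS

end Vale.P366
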