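import Vale.Agent.P366.Curvature

/-!
# The scalar curvature, closed form (P366)
-/

open scoped Topology

namespace Vale.P366

variable {n : ℕ} {g : Tens n} {u : Pt n → ℝ} {U : Set (Pt n)}

/-- `r⁻² Δ_S u`, the tangential Laplacian. -/
noncomputable def lapS (u : Pt n → ℝ) (x : Pt n) : ℝ :=
  lap u x - (dot x (hu u x) + (n - 1) * du u x) / rsq x

namespace QS

variable (h : QS g u U) {x : Pt n} (hx : x ∈ U)

include h hx

lemma pd_christoffel_trace (i j : Fin n) :
    pd j (fun y => ∑ k, christoffel g k i k y) x
      = pd j (pd i u) x / u x - gu u x i * gu u x j / u x ^ 2 := by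
  have h0 := (h.pos x hx).ne'
  have e : (fun y => ∑ k, christoffel g k i k y) =ᶠ[𝓝 x] fun y => pd i u y * (u y)⁻¹ :=
    Filter.eventually_of_mem (h.mem_nhds hx) fun y hy => by
      show ∑ k, christoffel g k i k y = _
      rw [h.christoffel_trace hy, div_eq_mul_inv]; rfl
  rw [pd_congr e, pd_mul (h.differentiableAt_pd_u hx i) ((h.differentiableAt_u hx).fun_inv h0),
    pd_inv (h.differentiableAt_u hx) h0]
  simp only [gu]
  field_simp
  ring

lemma differentiableAt_christoffel (k i j : Fin n) :
    DifferentiableAt ℝ (christoffel g k i j) x := by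
  have d1 := h.differentiableAt_c1 hx
  have d2 := h.differentiableAt_vf hx
  have d3 := h.differentiableAt_c3 hx
  have d4 := h.differentiableAt_c4 hx
  have dg := fun l => h.differentiableAt_pd_u hx l
  have co := fun l => differentiableAt_coord (x := x) l
  refine (((((d1.fun_mul (co k)).fun_mul (((dg i).fun_mul (co j)).fun_add
    ((dg j).fun_mul (co i)))).fun_add ((d2.fun_mul (co k)).fun_mul
      (differentiableAt_const (if i = j then (1 : ℝ) else 0)))).fun_add
    ((d3.fun_mul (dg k)).fun_mul ((co i).fun_mul (co j)))).fun_add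
    ((d4.fun_mul (co k)).fun_mul ((co i).fun_mul (co j)))).congr_of_eventuallyEq ?_
  exact Filter.eventually_of_mem (h.mem_nhds hx) fun y hy => h.christoffel_u hy k i j

lemma christoffel_symm (k i j : Fin n) : christoffel g k i j x = christoffel g k j i x := by
  rw [h.christoffel_u hx, h.christoffel_u hx]
  simp only [eq_comm (a := i) (b := j)]
  ring

/-- The quadratic term `Γ^k_{jl} Γ^l_{ik}`. -/
lemma christoffel_sq (i j : Fin n) :
    ∑ k, ∑ l, christoffel g k j l x * christoffel g l i k x
      = gu u x i * gu u x j / u x ^ 2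
        - u x * vf u x * (gu u x i * x j + x i * gu u x j)
        + (2 * u x ^ 2 * du u x ^ 2 / rsq x ^ 2 - 2 * dot (gu u x) (gu u x) / rsq x
          - 2 * u x * c4 u x * du u x) * (x i * x j) := by
  have hr := (h.rsq_pos hx).ne'
  have h0 := (h.pos x hx).ne'
  let L : Fin n → Fin n → ℝ := fun a l => c1 u x * (gu u x a * x l + gu u x l * x a)
    + vf u x * (if a = l then 1 else 0) + c4 u x * (x a * x l)
  have eG : ∀ k a l, christoffel g k a l x = x k * L a l + c3 u x * x a * gu u x k * x l :=
    fun k a l => by rw [h.christoffel_u hx]; simp only [L]; ring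
  have ex : ∀ a, ∑ l, x l * L a l = gu u x a / u x + x a * (u x * du u x / rsq x) := fun a => by
    calc ∑ l, x l * L a l = ∑ l, (c1 u x * gu u x a * (x l * x l)
          + c1 u x * x a * (x l * gu u x l) + vf u x * (x l * (if a = l then 1 else 0))
          + c4 u x * x a * (x l * x l)) := Finset.sum_congr rfl fun l _ => by
            simp only [L]; ring
      _ = c1 u x * gu u x a * rsq x + c1 u x * x a * du u x + vf u x * x a
          + c4 u x * x a * rsq x := by
          simp only [Finset.sum_add_distrib, ← Finset.mul_sum, sum_mul_ite, rsq, du, dot]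
      _ = _ := by simp only [c1, c4, vf]; field_simp; ring
  have eu : ∀ a, ∑ l, gu u x l * L a l = gu u x a * (c1 u x * du u x + vf u x)
      + x a * (c1 u x * dot (gu u x) (gu u x) + c4 u x * du u x) := fun a => by
    calc ∑ l, gu u x l * L a l = ∑ l, (c1 u x * gu u x a * (x l * gu u x l)
          + c1 u x * x a * (gu u x l * gu u x l)
          + vf u x * (gu u x l * (if a = l then 1 else 0))
          + c4 u x * x a * (x l * gu u x l)) := Finset.sum_congr rfl fun l _ => by
            simp only [L]; ring
      _ = _ := by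
          simp only [Finset.sum_add_distrib, ← Finset.mul_sum, sum_mul_ite, du, dot]
          ring
  calc ∑ k, ∑ l, christoffel g k j l x * christoffel g l i k x
      = (∑ k, x k * L i k) * (∑ l, x l * L j l)
        + c3 u x * x i * ((∑ k, x k * x k) * ∑ l, gu u x l * L j l)
        + c3 u x * x j * ((∑ k, gu u x k * L i k) * ∑ l, x l * x l)
        + c3 u x ^ 2 * (x i * x j) * ((∑ k, x k * gu u x k) * ∑ l, x l * gu u x l) := by
        rw [Finset.sum_mul_sum, Finset.sum_mul_sum, Finset.sum_mul_sum, Finset.sum_mul_sum]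
        simp only [Finset.mul_sum, ← Finset.sum_add_distrib]
        exact Finset.sum_congr rfl fun k _ => Finset.sum_congr rfl fun l _ => by
          rw [eG, eG]; ring
    _ = _ := by
        rw [ex, ex, eu, eu]
        have er : ∑ k, x k * x k = rsq x := rfl
        have ed : ∑ k, x k * gu u x k = du u x := rfl
        rw [er, ed]
        simp only [c1, c3, vf]
        field_simp
        ring

/-- The scalar curvature of a quasi-spherical metric. -/
theorem scalarCurv_eq : scalarCurv g x
    = (n - 1) / rsq x * ((n - 2) * (1 - pf u x) + 2 * du u x / u x ^ 3)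
      - 2 / u x * lapS u x := by
  have hr := (h.rsq_pos hx).ne'
  have h0 := (h.pos x hx).ne'
  have hp := h.one_sub_v hx
  have hR : ∀ i j, ricci g x i j
      = (∑ k, pd k (christoffel g k i j) x) - pd j (fun y => ∑ k, christoffel g k i k y) x
        + ((∑ l, gu u x l / u x * christoffel g l i j x)
          - ∑ k, ∑ l, christoffel g k j l x * christoffel g l i k x) := by
    intro i j
    rw [pd_sum fun k _ => h.differentiableAt_christoffel hx k i k]
    simp only [ricci, Finset.sum_add_distrib, Finset.sum_sub_distrib]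
    congr 2
    rw [Finset.sum_comm]
    refine Finset.sum_congr rfl fun l _ => ?_
    rw [← Finset.sum_mul, ← h.christoffel_trace hx l]
    congr 1
    exact Finset.sum_congr rfl fun k _ => h.christoffel_symm hx k k l
  have A1 : ∀ a b : Fin n → ℝ, ∑ i, ∑ j, ginv g x i j * (a i * b j + a j * b i)
      = 2 * (dot a b - vf u x * dot x a * dot x b) := by
    intro a b
    simp only [mul_add, Finset.sum_add_distrib, mul_comm (a _) (b _)]
    rw [h.ginv_dyad hx, dot_comm b a]
    have := h.ginv_dyad hx a b
    simp only [mul_comm (a _) (b _)] at this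
    rw [this]; ring
  have P1 : ∑ i, ∑ j, ginv g x i j * (∑ k, pd k (christoffel g k i j) x)
      = ((∑ k, x k * pd k (c1 u) x) + (n + 1) * c1 u x + c3 u x) * (2 * pf u x * du u x)
        + c1 u x * (2 * pf u x * dot x (hu u x))
        + ((∑ k, x k * pd k (vf u) x) + n * vf u x) * (n - 1 + pf u x)
        + (c3 u x * lap u x + dot (gu u x) (fun k => pd k (c3 u) x)
          + (∑ k, x k * pd k (c4 u) x) + (n + 2) * c4 u x) * (pf u x * rsq x) := by
    calc ∑ i, ∑ j, ginv g x i j * (∑ k, pd k (christoffel g k i j) x)
        = ((∑ k, x k * pd k (c1 u) x) + (n + 1) * c1 u x + c3 u x)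
            * (∑ i, ∑ j, ginv g x i j * (gu u x i * x j + gu u x j * x i))
          + c1 u x * (∑ i, ∑ j, ginv g x i j * (hu u x i * x j + hu u x j * x i))
          + ((∑ k, x k * pd k (vf u) x) + n * vf u x)
            * (∑ i, ∑ j, ginv g x i j * (if i = j then (1 : ℝ) else 0))
          + (c3 u x * lap u x + dot (gu u x) (fun k => pd k (c3 u) x)
            + (∑ k, x k * pd k (c4 u) x) + (n + 2) * c4 u x)
            * (∑ i, ∑ j, ginv g x i j * (x i * x j)) := by
          simp only [h.sum_pd_christoffel hx, Finset.mul_sum, ← Finset.sum_add_distrib]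
          exact Finset.sum_congr rfl fun i _ => Finset.sum_congr rfl fun j _ => by ring
      _ = _ := by
          rw [A1, A1, h.ginv_delta hx, h.ginv_dyad hx, dot_comm (gu u x) x, dot_comm (hu u x) x,
            show dot x.ofLp x.ofLp = rsq x from rfl, ← du, ← hp]
          ring
  have P2 : ∑ i, ∑ j, ginv g x i j * pd j (fun y => ∑ k, christoffel g k i k y) x
      = (lap u x - vf u x * dot x (hu u x)) / u x
        - (dot (gu u x) (gu u x) - vf u x * du u x ^ 2) / u x ^ 2 := by
    have e : ∑ i, ∑ j, ginv g x i j * pd j (pd i u) x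
        = lap u x - vf u x * dot x (hu u x) := by
      simp only [h.ginv_eq hx, sub_mul, Finset.sum_sub_distrib, ite_mul, one_mul, zero_mul,
        Finset.sum_ite_eq, Finset.mem_univ, if_true, lap, dot, hu, Finset.mul_sum]
      congr 1
      exact Finset.sum_congr rfl fun i _ => Finset.sum_congr rfl fun j _ => by ring
    calc ∑ i, ∑ j, ginv g x i j * pd j (fun y => ∑ k, christoffel g k i k y) x
        = 1 / u x * (∑ i, ∑ j, ginv g x i j * pd j (pd i u) x)
          - 1 / u x ^ 2 * (∑ i, ∑ j, ginv g x i j * (gu u x i * gu u x j)) := by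
          simp only [h.pd_christoffel_trace hx, Finset.mul_sum, ← Finset.sum_sub_distrib]
          exact Finset.sum_congr rfl fun i _ => Finset.sum_congr rfl fun j _ => by ring
      _ = _ := by rw [e, h.ginv_dyad hx, ← du]; ring
  have P3 : ∑ i, ∑ j, ginv g x i j * (∑ l, gu u x l / u x * christoffel g l i j x)
      = du u x / u x * (c1 u x * (2 * pf u x * du u x) + vf u x * (n - 1 + pf u x)
          + c4 u x * (pf u x * rsq x))
        + c3 u x * (pf u x * rsq x) * dot (gu u x) (gu u x) / u x := by
    calc ∑ i, ∑ j, ginv g x i j * (∑ l, gu u x l / u x * christoffel g l i j x)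
        = ∑ l, gu u x l / u x * (∑ i, ∑ j, ginv g x i j * christoffel g l i j x) := by
          simp only [Finset.mul_sum]
          rw [Finset.sum_congr rfl fun i _ => Finset.sum_comm, Finset.sum_comm]
          exact Finset.sum_congr rfl fun l _ => Finset.sum_congr rfl fun i _ =>
            Finset.sum_congr rfl fun j _ => by ring
      _ = ∑ l, ((c1 u x * (2 * pf u x * du u x) + vf u x * (n - 1 + pf u x)
            + c4 u x * (pf u x * rsq x)) / u x * (x l * gu u x l)
          + c3 u x * (pf u x * rsq x) / u x * (gu u x l * gu u x l)) :=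
          Finset.sum_congr rfl fun l _ => by rw [h.christoffel_contract hx]; ring
      _ = _ := by
          simp only [Finset.sum_add_distrib, ← Finset.mul_sum, du, dot]
          ring
  have P4 : ∑ i, ∑ j, ginv g x i j * (∑ k, ∑ l, christoffel g k j l x * christoffel g l i k x)
      = (dot (gu u x) (gu u x) - vf u x * du u x ^ 2) / u x ^ 2
        - u x * vf u x * (2 * pf u x * du u x)
        + (2 * u x ^ 2 * du u x ^ 2 / rsq x ^ 2 - 2 * dot (gu u x) (gu u x) / rsq x
          - 2 * u x * c4 u x * du u x) * (pf u x * rsq x) := by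
    calc ∑ i, ∑ j, ginv g x i j * (∑ k, ∑ l, christoffel g k j l x * christoffel g l i k x)
        = 1 / u x ^ 2 * (∑ i, ∑ j, ginv g x i j * (gu u x i * gu u x j))
          - u x * vf u x * (∑ i, ∑ j, ginv g x i j * (gu u x i * x j + gu u x j * x i))
          + (2 * u x ^ 2 * du u x ^ 2 / rsq x ^ 2 - 2 * dot (gu u x) (gu u x) / rsq x
              - 2 * u x * c4 u x * du u x) * (∑ i, ∑ j, ginv g x i j * (x i * x j)) := by
          simp only [h.christoffel_sq hx, Finset.mul_sum, ← Finset.sum_sub_distrib,
            ← Finset.sum_add_distrib]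
          exact Finset.sum_congr rfl fun i _ => Finset.sum_congr rfl fun j _ => by ring
      _ = _ := by
          rw [A1, h.ginv_dyad hx, h.ginv_dyad hx, dot_comm (gu u x) x, show dot x.ofLp x.ofLp = rsq x from rfl, ← du, ← hp]
          ring
  have hS : scalarCurv g x
      = (∑ i, ∑ j, ginv g x i j * (∑ k, pd k (christoffel g k i j) x))
        - (∑ i, ∑ j, ginv g x i j * pd j (fun y => ∑ k, christoffel g k i k y) x)
        + (∑ i, ∑ j, ginv g x i j * (∑ l, gu u x l / u x * christoffel g l i j x))
        - ∑ i, ∑ j, ginv g x i j * (∑ k, ∑ l, christoffel g k j l x * christoffel g l i k x) := by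
    simp only [scalarCurv, hR, mul_add, mul_sub, Finset.sum_add_distrib, Finset.sum_sub_distrib]
    ring
  rw [hS, P1, P2, P3, P4, h.x_pd_c1 hx, h.x_pd_vf hx, h.x_pd_c4 hx, h.gu_pd_c3 hx]
  simp only [c1, c3, c4, vf, pf, lapS]
  field_simp
  ring

end QS

end Vale.P366
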