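import Vale.Agent.P366.Flux

/-!
# Data satisfying the hypotheses: a spherically symmetric slice of the Schwarzschild spacetime (P366)

In the areal radius `r`, with `s = r^(2-n)`, the slice has lapse `(1 - s + s²)^(-1/2)`, the
eigenvalues of `K` are `-s/r` along the spheres and `(n-2) s/r` along the normal.
-/

open Filter Set
open scoped Topology

namespace Vale.P366

variable {n : ℕ}

/-- `r^(-k)` as a function of `q = r²`. -/
noncomputable def invPow (k : ℕ) (q : ℝ) : ℝ := (Real.sqrt q ^ k)⁻¹

/-- `1/u²` as a function of `r²`. -/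
noncomputable def sliceP (n : ℕ) (q : ℝ) : ℝ := 1 - invPow (n - 2) q + invPow (n - 2) q ^ 2

/-- The lapse as a function of `r²`. -/
noncomputable def sliceU (n : ℕ) (q : ℝ) : ℝ := (Real.sqrt (sliceP n q))⁻¹

/-- The coefficient of `x x` in `K`, as a function of `r²`. -/
noncomputable def sliceC (n : ℕ) (q : ℝ) : ℝ :=
  (((n : ℝ) - 2) * invPow (n - 1) q / sliceP n q + invPow (n - 1) q) / q

/-- The lapse of the slice. -/
noncomputable def lapseW (x : Pt n) : ℝ := sliceU n (rsq x)

/-- The metric of the slice. -/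
noncomputable def metricW : Tens n := fun x => Matrix.of fun i j =>
  (if i = j then 1 else 0) + (lapseW x ^ 2 - 1) / rsq x * x i * x j

/-- The extrinsic curvature of the slice. -/
noncomputable def extW : Tens n := fun x => Matrix.of fun i j =>
  -invPow (n - 1) (rsq x) * (if i = j then 1 else 0) + sliceC n (rsq x) * (x i * x j)

lemma sliceP_pos (q : ℝ) : 0 < sliceP n q := by
  unfold sliceP; nlinarith [sq_nonneg (invPow (n - 2) q - 1 / 2)]

lemma hasDerivAt_invPow (k : ℕ) {q : ℝ} (hq : 0 < q) :
    HasDerivAt (invPow k) (-(k : ℝ) * invPow k q / (2 * q)) q := by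
  have hs : 0 < Real.sqrt q := Real.sqrt_pos.2 hq
  refine (((Real.hasDerivAt_sqrt hq.ne').fun_pow k).fun_inv (pow_ne_zero _ hs.ne')).congr_deriv ?_
  rcases k with _ | k
  · simp
  · simp only [invPow, Nat.add_sub_cancel, pow_succ]
    have := Real.mul_self_sqrt hq.le
    field_simp
    nlinarith

lemma contDiffAt_invPow (k : ℕ) {q : ℝ} (hq : 0 < q) {m : WithTop ℕ∞} :
    ContDiffAt ℝ m (invPow k) q :=
  ((Real.contDiffAt_sqrt hq.ne').pow k).inv (pow_ne_zero _ (Real.sqrt_pos.2 hq).ne')

lemma contDiffAt_sliceP {q : ℝ} (hq : 0 < q) {m : WithTop ℕ∞} :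
    ContDiffAt ℝ m (sliceP n) q :=
  (contDiffAt_const.sub (contDiffAt_invPow _ hq)).add ((contDiffAt_invPow _ hq).pow 2)

lemma contDiffAt_sliceU {q : ℝ} (hq : 0 < q) {m : WithTop ℕ∞} :
    ContDiffAt ℝ m (sliceU n) q :=
  ((contDiffAt_sliceP hq).sqrt (sliceP_pos q).ne').inv (Real.sqrt_pos.2 (sliceP_pos q)).ne'

lemma contDiffAt_sliceC {q : ℝ} (hq : 0 < q) {m : WithTop ℕ∞} :
    ContDiffAt ℝ m (sliceC n) q :=
  (((contDiffAt_const.mul (contDiffAt_invPow _ hq)).div (contDiffAt_sliceP hq)
    (sliceP_pos q).ne').add (contDiffAt_invPow _ hq)).div contDiffAt_id hq.ne'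

lemma hasDerivAt_sliceP {q : ℝ} (hq : 0 < q) (hn : 2 ≤ n) : HasDerivAt (sliceP n)
    (((n : ℝ) - 2) * (invPow (n - 2) q - 2 * invPow (n - 2) q ^ 2) / (2 * q)) q := by
  have h := hasDerivAt_invPow (n - 2) hq
  refine (((hasDerivAt_const q (1 : ℝ)).sub h).add (h.fun_pow 2)).congr_deriv ?_
  rw [Nat.cast_sub hn]
  push_cast
  ring

lemma lapseW_sq (x : Pt n) : lapseW x ^ 2 = 1 / sliceP n (rsq x) := by
  rw [lapseW, sliceU, inv_pow, Real.sq_sqrt (sliceP_pos _).le, one_div]

lemma isOpen_ne0 : IsOpen {x : Pt n | x ≠ 0} := isClosed_singleton.isOpen_compl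

lemma qsW : QS (metricW (n := n)) lapseW {x | x ≠ 0} where
  isOpen := isOpen_ne0
  ne0 _ h := h
  smooth _ hx := ((contDiffAt_sliceU (rsq_pos hx)).comp _ contDiff_rsq.contDiffAt).contDiffWithinAt
  pos _ _ := inv_pos.2 (Real.sqrt_pos.2 (sliceP_pos _))
  form _ _ _ _ := rfl

lemma symW : SymData (extW (n := n)) {x | x ≠ 0} where
  smooth i j := fun x hx => by
    refine ContDiffAt.contDiffWithinAt ?_
    exact (((contDiffAt_invPow (n - 1) (rsq_pos hx)).comp x contDiff_rsq.contDiffAt).neg.mul
      contDiffAt_const).add (((contDiffAt_sliceC (rsq_pos hx)).comp x contDiff_rsq.contDiffAt).mul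
      ((contDiff_coord i).contDiffAt.mul (contDiff_coord j).contDiffAt))
  symm x _ i j := by simp only [extW, Matrix.of_apply, eq_comm (a := i), mul_comm (x i)]

/-- The chain rule through `r²`. -/
lemma pd_rsq_comp {F : ℝ → ℝ} {x : Pt n} (hF : DifferentiableAt ℝ F (rsq x)) (i : Fin n) :
    pd i (fun y => F (rsq y)) x = deriv F (rsq x) * (2 * x i) := by
  have h : HasFDerivAt (fun y => F (rsq y)) (deriv F (rsq x) • fderiv ℝ rsq x) x :=
    hF.hasDerivAt.comp_hasFDerivAt x differentiableAt_rsq.hasFDerivAt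
  rw [pd, h.fderiv, ← pd_rsq (x := x) i, pd]
  rfl

section
variable {x : Pt n} (hx : x ≠ 0)

lemma sum_K_mul (i : Fin n) (v : Fin n → ℝ) :
    ∑ j, extW x i j * v j = -invPow (n - 1) (rsq x) * v i
      + sliceC n (rsq x) * x i * ∑ j, x j * v j := by
  simp only [extW, Matrix.of_apply, add_mul, Finset.sum_add_distrib, Finset.mul_sum]
  refine congr_arg₂ _ (by simp) (Finset.sum_congr rfl fun j _ => by ring)

include hx

lemma bFW (hn : 2 ≤ n) : bF extW x = -invPow (n - 1) (rsq x) := by
  have : (n : ℝ) - 1 ≠ 0 := by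
    have : (2 : ℝ) ≤ n := by exact_mod_cast hn
    linarith
  rw [bF, div_eq_iff this]
  calc ∑ i, ∑ j, proj x i j * extW x i j = ∑ i, ∑ j, extW x i j * proj x i j :=
        Finset.sum_congr rfl fun i _ => Finset.sum_congr rfl fun j _ => mul_comm _ _
    _ = ∑ i, (-invPow (n - 1) (rsq x) * proj x i i) := by
        refine Finset.sum_congr rfl fun i _ => ?_
        rw [sum_K_mul, show ∑ j, x j * proj x i j = ∑ j, proj x i j * x j from
          Finset.sum_congr rfl fun j _ => mul_comm _ _, proj_x hx]
        ring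
    _ = _ := by rw [← Finset.mul_sum, proj_trace hx]

omit hx in
lemma Knu (i : Fin n) : ∑ j, extW x i j * nu lapseW x j
    = (-invPow (n - 1) (rsq x) + sliceC n (rsq x) * rsq x) * nu lapseW x i := by
  rw [sum_K_mul]
  have e : ∑ j, x j * nu lapseW x j = rsq x / (lapseW x * rad x) := by
    simp only [nu, rsq, Finset.sum_div]
    exact Finset.sum_congr rfl fun j _ => by ring
  rw [e, nu]
  ring

lemma aFW : aF lapseW extW x = ((n : ℝ) - 2) * invPow (n - 1) (rsq x) := by
  have h : ∑ i, nu lapseW x i * nu lapseW x i = sliceP n (rsq x) := by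
    have h0 := (qsW.pos x hx : 0 < lapseW x)
    have hr := rad_pos hx
    calc ∑ i, nu lapseW x i * nu lapseW x i = rsq x / (lapseW x ^ 2 * (rad x * rad x)) := by
          simp only [nu, rsq, Finset.sum_div]
          exact Finset.sum_congr rfl fun i _ => by ring
      _ = _ := by rw [rad_sq, lapseW_sq]; field_simp [(rsq_pos hx).ne']
  calc aF lapseW extW x = ∑ i, nu lapseW x i * ∑ j, extW x i j * nu lapseW x j := by
        simp only [aF, Finset.mul_sum]
        exact Finset.sum_congr rfl fun i _ => Finset.sum_congr rfl fun j _ => by ring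
    _ = (-invPow (n - 1) (rsq x) + sliceC n (rsq x) * rsq x) * sliceP n (rsq x) := by
        simp only [Knu, mul_left_comm (nu lapseW x _), ← Finset.mul_sum, h]
    _ = _ := by
        have := sliceP_pos (n := n) (rsq x)
        have := (rsq_pos hx).ne'
        simp only [sliceC]
        field_simp
        ring

lemma kFW (a : Fin n) : kF lapseW extW x a = 0 := by
  simp only [kF, Knu, mul_left_comm (proj x a _), ← Finset.mul_sum]
  rw [proj_vec]
  have e : dot x.ofLp (nu lapseW x) = rsq x / (lapseW x * rad x) := by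
    simp only [dot, nu, rsq, Finset.sum_div]
    exact Finset.sum_congr rfl fun j _ => by ring
  rw [e, nu]
  field_simp [(rsq_pos hx).ne']
  ring

lemma normSqW : normSqG metricW extW x = ((n : ℝ) - 1) * invPow (n - 1) (rsq x) ^ 2
    + (((n : ℝ) - 2) * invPow (n - 1) (rsq x)) ^ 2 := by
  set β := -invPow (n - 1) (rsq x) with hβ
  set η := sliceC n (rsq x) - vf lapseW x * (β + sliceC n (rsq x) * rsq x)
  have hL : ∀ p j, ∑ i, ginv metricW x i p * extW x i j
      = β * (if p = j then 1 else 0) + η * (x p * x j) := fun p j => by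
    calc ∑ i, ginv metricW x i p * extW x i j
        = ∑ i, (β * ((if i = j then (1 : ℝ) else 0) * (if i = p then 1 else 0))
            + sliceC n (rsq x) * x j * (x i * (if i = p then 1 else 0))
            - vf lapseW x * β * x p * (x i * (if i = j then 1 else 0))
            - vf lapseW x * sliceC n (rsq x) * x p * x j * (x i * x i)) :=
          Finset.sum_congr rfl fun i _ => by
            rw [qsW.ginv_eq hx]; simp only [extW, Matrix.of_apply, hβ]; ring
      _ = _ := by
          simp only [Finset.sum_add_distrib, Finset.sum_sub_distrib, ← Finset.mul_sum]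
          rcases eq_or_ne p j with rfl | hpj
          · simp [rsq, η]; ring
          · simp [rsq, η, hpj]; ring
  calc normSqG metricW extW x
      = ∑ j, ∑ p, (∑ i, ginv metricW x i p * extW x i j)
          * (∑ m, ginv metricW x m j * extW x m p) := by
        have hs : ∀ a b, extW x a b = extW x b a := symW.symm x hx
        have hg : ∀ a b, ginv metricW x a b = ginv metricW x b a := fun a b => by
          rw [qsW.ginv_eq hx, qsW.ginv_eq hx]; simp only [eq_comm (a := a)]; ring
        rw [normSqG, Finset.sum_comm]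
        refine Finset.sum_congr rfl fun j _ => ?_
        rw [Finset.sum_comm]
        refine Finset.sum_congr rfl fun p _ => ?_
        rw [Finset.sum_mul_sum]
        exact Finset.sum_congr rfl fun i _ => Finset.sum_congr rfl fun m _ => by
          rw [hg j m, hs p m]; ring
    _ = ∑ j, ∑ p, (β * β * (if p = j then 1 else 0)
          + 2 * β * η * ((x p * x j) * (if p = j then 1 else 0))
          + η * η * ((x j * x j) * (x p * x p))) := by
        refine Finset.sum_congr rfl fun j _ => Finset.sum_congr rfl fun p _ => ?_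
        rw [hL, hL]
        rcases eq_or_ne p j with rfl | hpj
        · simp; ring
        · simp [hpj, hpj.symm]; ring
    _ = n * β ^ 2 + 2 * β * η * rsq x + η * η * (rsq x * rsq x) := by
        simp only [Finset.sum_add_distrib, ← Finset.mul_sum, rsq, Finset.sum_mul_sum]
        simp [sq]
        ring
    _ = _ := by
        have hv := qsW.one_sub_v hx
        rw [pf, lapseW_sq, one_div_one_div] at hv
        have e : η * rsq x = ((n : ℝ) - 2) * invPow (n - 1) (rsq x) - β := by
          have h1 : η * rsq x = sliceC n (rsq x) * rsq x * (1 - vf lapseW x * rsq x)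
              - β * (vf lapseW x * rsq x) := by simp only [η]; ring
          have h2 : sliceC n (rsq x) * rsq x * sliceP n (rsq x)
              = ((n : ℝ) - 2) * invPow (n - 1) (rsq x) - β * sliceP n (rsq x) := by
            have := sliceP_pos (n := n) (rsq x)
            have := (rsq_pos hx).ne'
            simp only [sliceC, hβ]
            field_simp
            ring
          rw [h1, hv, h2, ← hv]; ring
        calc _ = n * β ^ 2 + 2 * β * (η * rsq x) + (η * rsq x) ^ 2 := by ring
          _ = _ := by rw [e, hβ]; ring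

lemma dbW (hn : 2 ≤ n) : db extW x = ((n : ℝ) - 1) * invPow (n - 1) (rsq x) := by
  have hq := rsq_pos hx
  have e : bF extW =ᶠ[𝓝 x] fun y => (fun q => -invPow (n - 1) q) (rsq y) :=
    Filter.eventually_of_mem (isOpen_ne0.mem_nhds hx) fun y hy => bFW hy hn
  have hd := (hasDerivAt_invPow (n - 1) hq).fun_neg
  simp only [db, pd_congr e, pd_rsq_comp (F := fun q => -invPow (n - 1) q) hd.differentiableAt,
    hd.deriv, mul_left_comm (x _), ← Finset.mul_sum]
  rw [show ∑ a, x a * x a = rsq x from rfl, Nat.cast_sub (by omega : 1 ≤ n)]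
  field_simp
  push_cast
  ring

lemma pd_lapseW (i : Fin n) :
    pd i lapseW x = 2 * deriv (sliceU n) (rsq x) * x i := by
  show pd i (fun y => sliceU n (rsq y)) x = _
  rw [pd_rsq_comp ((contDiffAt_sliceU (m := 1) (rsq_pos hx)).differentiableAt one_ne_zero)]
  ring

lemma lapS_W : lapS lapseW x = 0 := by
  have hq := rsq_pos hx
  have hG : DifferentiableAt ℝ (fun q => 2 * deriv (sliceU n) q) (rsq x) :=
    ((((contDiffAt_sliceU (m := 2) hq)).derivWithin (m := 1) (by norm_num)).differentiableAt
      one_ne_zero).const_mul 2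
  set G := deriv (sliceU n) (rsq x)
  set G' := deriv (fun q => 2 * deriv (sliceU n) q) (rsq x)
  have h2 : ∀ k i, pd k (pd i lapseW) x
      = 2 * G' * (x k * x i) + 2 * G * (if i = k then 1 else 0) := fun k i => by
    have e : pd i lapseW =ᶠ[𝓝 x] fun y => (fun q => 2 * deriv (sliceU n) q) (rsq y) * y i :=
      Filter.eventually_of_mem (isOpen_ne0.mem_nhds hx) fun y hy => pd_lapseW hy i
    have hc : DifferentiableAt ℝ (fun y : Pt n => (fun q => 2 * deriv (sliceU n) q) (rsq y)) x :=
      hG.comp x differentiableAt_rsq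
    rw [pd_congr e, pd_mul hc (differentiableAt_coord i),
      pd_rsq_comp (F := fun q => 2 * deriv (sliceU n) q) hG, pd_coord]
    ring
  have hlap : lap lapseW x = 2 * G' * rsq x + 2 * G * n := by
    simp [lap, h2, Finset.sum_add_distrib, ← Finset.mul_sum, rsq]
    ring
  have hhu : ∀ i, hu lapseW x i = (2 * G' * rsq x + 2 * G) * x i := fun i => by
    calc hu lapseW x i = ∑ k, (2 * G' * x i * (x k * x k)
          + 2 * G * (x k * (if i = k then 1 else 0))) :=
          Finset.sum_congr rfl fun k _ => by rw [h2]; ring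
      _ = _ := by
          simp only [Finset.sum_add_distrib, ← Finset.mul_sum, sum_mul_ite]
          show 2 * G' * x i * rsq x + _ = _
          ring
  have hdu : du lapseW x = 2 * G * rsq x := by
    simp only [du, dot, gu, pd_lapseW hx, mul_left_comm (x _), ← Finset.mul_sum]
    rfl
  have hd : dot x (hu lapseW x) = (2 * G' * rsq x + 2 * G) * rsq x := by
    simp only [dot, hhu, mul_left_comm (x _), ← Finset.mul_sum]
    rfl
  rw [lapS, hlap, hd, hdu]
  field_simp
  ring

lemma scalarW (hn : 2 ≤ n) : scalarCurv metricW x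
    = ((n : ℝ) - 1) * ((n : ℝ) - 2) * invPow (n - 2) (rsq x) ^ 2 / rsq x := by
  have hq := (rsq_pos hx).ne'
  have hd := hasDerivAt_sliceP (n := n) (rsq_pos hx) hn
  have e : pf lapseW = fun y : Pt n => sliceP n (rsq y) :=
    funext fun y => by rw [pf, lapseW_sq, one_div_one_div]
  have h1 : ∑ a, x a * pd a (pf lapseW) x = -2 * (du lapseW x / lapseW x ^ 3) := by
    simp only [qsW.pd_pf hx, du, dot, gu, Finset.sum_div, Finset.mul_sum]
    exact Finset.sum_congr rfl fun a _ => by ring
  simp only [e, pd_rsq_comp hd.differentiableAt, hd.deriv, mul_left_comm (x _),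
    ← Finset.mul_sum] at h1
  rw [show ∑ a, x a * x a = rsq x from rfl] at h1
  field_simp at h1
  rw [qsW.scalarCurv_eq hx, lapS_W hx, e]
  simp only [sliceP]
  field_simp
  linear_combination ((n : ℝ) - 1) * h1

/-- The momentum density is radial. -/
lemma momDensityW_radial (hn : 2 ≤ n) : ∃ S, ∀ i, momDensity metricW extW x i = S * x i := by
  have hq := rsq_pos hx
  let T : ℝ → ℝ := fun q => -((n : ℝ) - 1) * invPow (n - 1) q + ((n : ℝ) - 2) * invPow (n - 1) q
  let FA : ℝ → ℝ := fun q => -invPow (n - 1) q - T q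
  let FB : ℝ → ℝ := fun q => sliceC n q - T q * ((1 / sliceP n q - 1) / q)
  have hT : ∀ y : Pt n, y ≠ 0 → traceG metricW extW y = T (rsq y) := fun y hy => by
    rw [qsW.traceG_eq hy hn, bFW hy hn, aFW hy]; simp only [T]; ring
  have dI := fun k => ((contDiffAt_invPow k hq (m := 1))).differentiableAt one_ne_zero
  have dT : DifferentiableAt ℝ T (rsq x) :=
    ((dI _).const_mul _).fun_add ((dI _).const_mul _)
  have dA : DifferentiableAt ℝ FA (rsq x) := (dI _).fun_neg.fun_sub dT
  have dB : DifferentiableAt ℝ FB (rsq x) :=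
    ((contDiffAt_sliceC (m := 1) hq).differentiableAt one_ne_zero).fun_sub (dT.fun_mul
      (((((contDiffAt_sliceP (m := 1) hq).differentiableAt one_ne_zero).fun_inv
        (sliceP_pos _).ne').const_mul 1 |>.sub_const 1).fun_mul
        (differentiableAt_id.fun_inv hq.ne')))
  have hpi : ∀ y : Pt n, y ≠ 0 → ∀ c i, momTensor metricW extW y c i
      = FA (rsq y) * (if c = i then 1 else 0) + FB (rsq y) * (y c * y i) := fun y hy c i => by
    simp only [momTensor, Matrix.sub_apply, Matrix.smul_apply, smul_eq_mul, hT y hy, extW,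
      metricW, Matrix.of_apply, lapseW_sq, FA, FB]
    ring
  set A := FA (rsq x)
  set B := FB (rsq x)
  set A' := deriv FA (rsq x)
  set B' := deriv FB (rsq x)
  have hpd : ∀ a c i, pd a (fun y => momTensor metricW extW y c i) x
      = 2 * A' * (x a * (if c = i then 1 else 0)) + 2 * B' * (x a * x c * x i)
        + B * ((if c = a then 1 else 0) * x i + x c * (if i = a then 1 else 0)) := fun a c i => by
    have e : (fun y => momTensor metricW extW y c i) =ᶠ[𝓝 x] fun y =>
        (if c = i then (1 : ℝ) else 0) * FA (rsq y) + FB (rsq y) * (y c * y i) :=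
      Filter.eventually_of_mem (isOpen_ne0.mem_nhds hx) fun y hy => by
        show momTensor metricW extW y c i = _
        rw [hpi y hy]; ring
    have c1 : DifferentiableAt ℝ (fun y : Pt n => FA (rsq y)) x := dA.comp x differentiableAt_rsq
    have c2 : DifferentiableAt ℝ (fun y : Pt n => FB (rsq y)) x := dB.comp x differentiableAt_rsq
    have c3 := (differentiableAt_coord (x := x) c).fun_mul (differentiableAt_coord i)
    rw [pd_congr e, pd_add (c1.const_mul _) (c2.fun_mul c3), pd_const_mul _ c1, pd_mul c2 c3,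
      pd_mul (differentiableAt_coord c) (differentiableAt_coord i), pd_coord, pd_coord,
      pd_rsq_comp dA, pd_rsq_comp dB]
    ring
  set G := 2 * deriv (sliceU n) (rsq x)
  set v := vf lapseW x
  set M := 2 * G * c1 lapseW x + G * c3 lapseW x + c4 lapseW x
  have hG : ∀ l a c, christoffel metricW l a c x
      = v * x l * (if a = c then 1 else 0) + M * x l * (x a * x c) := fun l a c => by
    rw [qsW.christoffel_u hx]; simp only [gu, pd_lapseW hx, M, G]; ring
  set N := A + B * rsq x
  have hl : ∀ a c i, ∑ l, (christoffel metricW l a c x * momTensor metricW extW x l i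
        + christoffel metricW l a i x * momTensor metricW extW x c l)
      = N * ((v * (if a = c then 1 else 0) + M * (x a * x c)) * x i
        + (v * (if a = i then 1 else 0) + M * (x a * x i)) * x c) := fun a c i => by
    calc _ = ∑ l, ((v * (if a = c then 1 else 0) + M * (x a * x c))
          * (A * (x l * (if l = i then 1 else 0)) + B * x i * (x l * x l))
          + (v * (if a = i then 1 else 0) + M * (x a * x i))
          * (A * (x l * (if c = l then 1 else 0)) + B * x c * (x l * x l))) :=
          Finset.sum_congr rfl fun l _ => by rw [hG, hG, hpi x hx, hpi x hx]; ring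
      _ = _ := by
          simp only [Finset.sum_add_distrib, ← Finset.mul_sum, N]
          simp [rsq]
          ring
  refine ⟨2 * A' * (1 - v * rsq x) + 2 * B' * (rsq x * (1 - v * rsq x))
    + B * ((n - v * rsq x) + (1 - v * rsq x))
    - N * (v * (n - v * rsq x) + M * (rsq x * (1 - v * rsq x))
      + v * (1 - v * rsq x) + M * (rsq x * (1 - v * rsq x))), fun i => ?_⟩
  have t1 : ∑ a, ∑ c, ginv metricW x a c * (if a = c then (1 : ℝ) else 0) = n - v * rsq x :=
    qsW.ginv_delta hx
  have t2 : ∑ a, ∑ c, ginv metricW x a c * (x a * x c) = rsq x * (1 - v * rsq x) := by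
    rw [qsW.ginv_dyad hx, ← rsq_eq_dot]; ring
  have t3 : ∑ a, ∑ c, ginv metricW x a c * (x a * (if c = i then (1 : ℝ) else 0))
      = x i * (1 - v * rsq x) := by
    rw [qsW.ginv_dyad hx x (fun c => if c = i then (1 : ℝ) else 0), ← rsq_eq_dot]
    simp [dot]; ring
  have t4 : ∑ a, ∑ c, ginv metricW x a c * ((if a = i then (1 : ℝ) else 0) * x c)
      = x i * (1 - v * rsq x) := by
    rw [qsW.ginv_dyad hx (fun c => if c = i then (1 : ℝ) else 0) x, ← rsq_eq_dot]
    simp [dot]; ring
  calc momDensity metricW extW x i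
      = ∑ a, ∑ c, (2 * A' * (ginv metricW x a c * (x a * (if c = i then (1 : ℝ) else 0)))
          + (2 * B' * x i - 2 * (N * M * x i)) * (ginv metricW x a c * (x a * x c))
          + (B * x i - N * v * x i) * (ginv metricW x a c * (if a = c then (1 : ℝ) else 0))
          + (B - N * v) * (ginv metricW x a c * ((if a = i then (1 : ℝ) else 0) * x c))) := by
        refine Finset.sum_congr rfl fun a _ => Finset.sum_congr rfl fun c _ => ?_
        rw [hl, hpd]
        simp only [eq_comm (a := c) (b := a), eq_comm (a := i) (b := a)]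
        ring
    _ = _ := by
        simp only [Finset.sum_add_distrib, ← Finset.mul_sum, t1, t2, t3, t4]
        ring

lemma momDensityW (hn : 2 ≤ n) (i : Fin n) : momDensity metricW extW x i = 0 := by
  obtain ⟨S, hS⟩ := momDensityW_radial hx hn
  have hk : ∀ a, kF lapseW extW x a = 0 := kFW hx
  have h := qsW.momDensity_nu symW hx hn
  have hdk : divk lapseW extW x = 0 := by
    refine Finset.sum_eq_zero fun a _ => ?_
    have e : (fun y => kF lapseW extW y a) =ᶠ[𝓝 x] fun _ => (0 : ℝ) :=
      Filter.eventually_of_mem (isOpen_ne0.mem_nhds hx) fun y hy => kFW hy a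
    rw [pd_congr e, pd_const]
  rw [hdk, dbW hx hn, bFW hx hn, aFW hx, show dot (kF lapseW extW x) (tau lapseW x) = 0 by
    simp [dot, hk]] at h
  simp only [hS, nu] at h
  rw [hS]
  have h0 := (qsW.pos x hx : 0 < lapseW x).ne'
  have hr := (rad_pos hx).ne'
  have e : S * rsq x / (lapseW x * rad x) = 0 := by
    calc S * rsq x / (lapseW x * rad x) = ∑ j, x j / (lapseW x * rad x) * (S * x j) := by
          simp only [rsq, Finset.mul_sum, Finset.sum_div]
          exact Finset.sum_congr rfl fun j _ => by ring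
      _ = _ := by rw [h]; ring
  simp only [div_eq_zero_iff, mul_eq_zero, h0, hr, (rsq_pos hx).ne', or_false] at e
  rw [e, zero_mul]

lemma energyW (hn : 2 ≤ n) : energyDensity metricW extW x = 0 := by
  have hq := (rsq_pos hx).ne'
  have e : invPow (n - 1) (rsq x) ^ 2 * rsq x = invPow (n - 2) (rsq x) ^ 2 := by
    obtain ⟨m, rfl⟩ : ∃ m, n = m + 2 := ⟨n - 2, by omega⟩
    have hs := Real.mul_self_sqrt (rsq_pos hx).le
    simp only [invPow, show m + 2 - 1 = m + 1 by omega, Nat.add_sub_cancel, inv_pow, pow_succ]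
    have := (Real.sqrt_pos.2 (rsq_pos hx)).ne'
    field_simp
    linarith
  rw [energyDensity, scalarW hx hn, qsW.traceG_eq hx hn, bFW hx hn, aFW hx, normSqW hx, ← e]
  field_simp
  ring

lemma decW (hn : 2 ≤ n) : DEC metricW extW x := by
  simp [DEC, momDensityW hx hn, energyW hx hn]

end

section
variable (n)

lemma rsq_of_norm {x : Pt n} {r : ℝ} (h : ‖x‖ = r) : rsq x = r ^ 2 := by rw [rsq_eq, h]

/-- The slice satisfies all the hypotheses, with equality in the bound. -/
theorem slice_setup (hn : 3 ≤ n) :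
    Setup (metricW (n := n)) extW lapseW {x | x ≠ 0} 1 ∧ Decays (metricW (n := n)) extW 1 ∧
      (∀ x : Pt n, 1 < ‖x‖ → ∀ a, mixedPart metricW extW x a = 0) ∧
      (∀ x y : Pt n, 1 < ‖x‖ → ‖x‖ = ‖y‖ →
        sphereTrace metricW extW x = sphereTrace metricW extW y) := by
  have hn2 : 2 ≤ n := by omega
  have hn' : (0 : ℝ) < n - 1 := by
    have : (3 : ℝ) ≤ n := by exact_mod_cast hn
    linarith
  have hne : ∀ x : Pt n, 1 ≤ ‖x‖ → x ≠ 0 := fun x hx h => by simp [h] at hx; linarith
  have hs : ∀ x : Pt n, invPow (n - 1) (rsq x) * rad x = invPow (n - 1) (rsq x) * ‖x‖ :=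
    fun x => by rw [rad_eq]
  have hpow : ∀ x : Pt n, ∀ k, invPow k (rsq x) = (‖x‖ ^ k)⁻¹ := fun x k => by
    rw [invPow, rsq_eq, Real.sqrt_sq (norm_nonneg x)]
  have hst : ∀ x : Pt n, x ≠ 0 → sphereTrace metricW extW x
      = -((n : ℝ) - 1) * invPow (n - 1) (rsq x) := fun x hx => by
    rw [qsW.sphereTrace_eq hx extW hn2, bFW hx hn2]; ring
  have hmix : ∀ x : Pt n, x ≠ 0 → ∀ a, mixedPart metricW extW x a = 0 := fun x hx a => by
    rw [qsW.mixedPart_eq hx, kFW hx]
  have hsm : ∀ x : Pt n, x ≠ 0 →
      invPow (n - 1) (rsq x) * ‖x‖ = invPow (n - 2) (rsq x) := fun x hx => by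
    rw [hpow, hpow, show n - 1 = (n - 2) + 1 by omega, pow_succ]
    field_simp [norm_ne_zero_iff.2 hx]
  have hle : ∀ x : Pt n, 1 ≤ ‖x‖ → ∀ k, 0 ≤ invPow k (rsq x) ∧ invPow k (rsq x) ≤ 1 := fun x hx k => by
    rw [hpow]; exact ⟨by positivity, inv_le_one_of_one_le₀ (one_le_pow₀ hx)⟩
  have hmc : ∀ x : Pt n, x ≠ 0 → meanCurv metricW x
      = ((n : ℝ) - 1) * Real.sqrt (sliceP n (rsq x)) / ‖x‖ := fun x hx => by
    rw [qsW.meanCurv_eq hx, rad_eq, lapseW, sliceU]
    have := (Real.sqrt_pos.2 (sliceP_pos (n := n) (rsq x))).ne'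
    field_simp
  refine ⟨⟨qsW, symW, hn, one_pos, fun x hx => hne x hx, fun x hx => decW (hne x hx.le) hn2,
    fun x hx => ?_, fun x hx => ?_, fun x hx => ?_⟩, ?_, fun x hx => hmix x (hne x hx.le),
    fun x y hx hxy => ?_⟩
  · have hx0 := hne x hx.le
    have hs0 := (hle x hx.le (n - 2))
    rw [hst x hx0, hmc x hx0, neg_mul, abs_neg, abs_mul, abs_of_pos hn',
      abs_of_nonneg (hle x hx.le (n - 1)).1, le_div_iff₀ (by linarith), mul_assoc, hsm x hx0]
    refine mul_le_mul_of_nonneg_left (Real.le_sqrt_of_sq_le ?_) hn'.le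
    unfold sliceP; nlinarith [hs0.2]
  · exact Finset.sum_eq_zero fun a _ => by rw [hmix x (hne x hx.le), zero_mul]
  · rw [hst x (hne x hx.ge), hmc x (hne x hx.ge), sliceP, hpow, hpow, hx]
    simp
  · refine ⟨(n : ℝ) - 2, 4 * n, by
      have : (3 : ℝ) ≤ n := by exact_mod_cast hn
      linarith,
      fun x hx i j => ?_⟩
    have hx0 := hne x hx
    have hq := rsq_pos hx0
    have h1 : |x i * x j| ≤ rsq x := by
      have hi : ∀ k, x k * x k ≤ rsq x := fun k =>
        Finset.single_le_sum (fun l _ => mul_self_nonneg (x l)) (Finset.mem_univ k)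
      rw [abs_mul]
      nlinarith [sq_nonneg (|x i| - |x j|), abs_mul_abs_self (x i), abs_mul_abs_self (x j), hi i, hi j]
    set s := invPow (n - 2) (rsq x) with hs_def
    have hs0 := hle x hx (n - 2)
    rw [← hs_def] at hs0
    have hP : 3 / 4 ≤ sliceP n (rsq x) := by
      show 3 / 4 ≤ 1 - s + s ^ 2
      nlinarith [sq_nonneg (s - 1 / 2)]
    have hn3 : (3 : ℝ) ≤ n := by exact_mod_cast hn
    have e1 : ‖x‖ ^ (-((n : ℝ) - 2)) = s := by
      rw [hs_def, hpow, Real.rpow_neg (norm_nonneg x), ← Real.rpow_natCast, Nat.cast_sub hn2]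
      norm_num
    have e2 : ‖x‖ ^ (-1 - ((n : ℝ) - 2)) = invPow (n - 1) (rsq x) := by
      rw [hpow, show -1 - ((n : ℝ) - 2) = -(((n - 1 : ℕ) : ℝ)) by
        rw [Nat.cast_sub (by omega)]; push_cast; ring, Real.rpow_neg (norm_nonneg x),
        Real.rpow_natCast]
    rw [e1, e2]
    constructor
    · have hb : |1 / sliceP n (rsq x) - 1| ≤ 4 * s := by
        rw [div_sub_one (sliceP_pos _).ne', abs_div, abs_of_pos (sliceP_pos _),
          div_le_iff₀ (sliceP_pos _)]
        show |1 - (1 - s + s ^ 2)| ≤ _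
        rw [abs_of_nonneg (by nlinarith)]
        nlinarith
      simp only [metricW, Matrix.of_apply, add_sub_cancel_left, lapseW_sq]
      rw [mul_assoc, abs_mul, abs_div, abs_of_pos hq]
      calc |1 / sliceP n (rsq x) - 1| / rsq x * |x i * x j| ≤ 4 * s / rsq x * rsq x := by
            refine mul_le_mul ?_ h1 (abs_nonneg _) (by have := hs0.1; positivity)
            exact div_le_div_of_nonneg_right hb hq.le
        _ = 4 * s := div_mul_cancel₀ _ hq.ne'
        _ ≤ _ := by nlinarith
    · set b := invPow (n - 1) (rsq x) with hb_def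
      have hb0 : 0 ≤ b := (hle x hx _).1
      have h2 : |(if i = j then (1 : ℝ) else 0)| ≤ 1 := by split_ifs <;> simp
      simp only [extW, Matrix.of_apply, sliceC, ← hb_def]
      refine (abs_add_le _ _).trans ?_
      rw [abs_mul, abs_neg, abs_of_nonneg hb0, abs_mul, abs_div, abs_of_pos hq]
      have h3 : |((n : ℝ) - 2) * b / sliceP n (rsq x) + b| ≤ (2 * n - 1) * b := by
        rw [abs_of_nonneg (add_nonneg (div_nonneg (mul_nonneg (by linarith) hb0)
          (sliceP_pos _).le) hb0),
          div_add' _ _ _ (sliceP_pos _).ne', div_le_iff₀ (sliceP_pos _)]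
        nlinarith [mul_nonneg hb0 (sub_nonneg.2 hP), mul_nonneg hb0 (sub_nonneg.2 hn3)]
      calc b * |(if i = j then (1 : ℝ) else 0)|
            + |((n : ℝ) - 2) * b / sliceP n (rsq x) + b| / rsq x * |x i * x j|
          ≤ b * 1 + (2 * n - 1) * b / rsq x * rsq x := by
            refine add_le_add (mul_le_mul_of_nonneg_left h2 hb0) (mul_le_mul ?_ h1 (abs_nonneg _) ?_)
            · exact div_le_div_of_nonneg_right h3 hq.le
            · have : 0 ≤ (2 * (n : ℝ) - 1) * b := mul_nonneg (by linarith) hb0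
              positivity
        _ = 2 * n * b := by rw [div_mul_cancel₀ _ hq.ne']; ring
        _ ≤ _ := by nlinarith
  · rw [hst x (hne x hx.le), hst y (hne y (hxy ▸ hx.le)), hpow, hpow, hxy]

/-- The energy of the slice is `1/2`. -/
theorem slice_energy (hn : 3 ≤ n) :
    Tendsto (energyFlux (metricW (n := n))) atTop (𝓝 (1 / 2)) := by
  have S := (slice_setup n hn).1
  have hω := sphereArea_pos (n := n) (by omega)
  have hev : (fun R : ℝ => (1 - (R ^ (n - 2))⁻¹) / (1 - (R ^ (n - 2))⁻¹ + (R ^ (n - 2))⁻¹ ^ 2) / 2)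
      =ᶠ[atTop] energyFlux (metricW (n := n)) := by
    filter_upwards [eventually_ge_atTop 1] with R hR
    have hR0 : (0 : ℝ) < R := lt_of_lt_of_le one_pos hR
    have h := S.energyFlux_eq hR
    set s := (R ^ (n - 2))⁻¹ with hs
    have e : ∀ θ : Metric.sphere (0 : Pt n) 1, lapseW (R • (θ : Pt n)) ^ 2 - 1
        = (s - s ^ 2) / (1 - s + s ^ 2) := fun θ => by
      rw [lapseW_sq, sliceP, invPow, rsq_eq, S.norm_ray hR θ, Real.sqrt_sq hR0.le, ← hs]
      have : 0 < 1 - s + s ^ 2 := by nlinarith [sq_nonneg (s - 1 / 2)]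
      field_simp
      ring
    simp only [e, MeasureTheory.integral_const, smul_eq_mul] at h
    have h' : 2 * energyFlux (metricW (n := n)) R
        = R ^ (n - 2) * ((s - s ^ 2) / (1 - s + s ^ 2)) := by
      refine mul_left_cancel₀ hω.ne' ?_
      calc sphereArea n * (2 * energyFlux metricW R) = 2 * sphereArea n * energyFlux metricW R := by
            ring
        _ = _ := by rw [h, sphereArea]; ring
    have hRs : R ^ (n - 2) * s = 1 := mul_inv_cancel₀ (pow_pos hR0 _).ne'
    rw [show R ^ (n - 2) * ((s - s ^ 2) / (1 - s + s ^ 2))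
      = (R ^ (n - 2) * s) * (1 - s) / (1 - s + s ^ 2) by ring, hRs, one_mul] at h'
    linarith
  refine Tendsto.congr' hev ?_
  have h0 : Tendsto (fun R : ℝ => (R ^ (n - 2))⁻¹) atTop (𝓝 0) :=
    tendsto_inv_atTop_zero.comp (tendsto_pow_atTop (by omega))
  simpa using (((h0.const_sub 1).div ((h0.const_sub 1).add (h0.pow 2))
    (by norm_num)).div_const 2)

end

end Vale.P366
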